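import Vale.Agent.Lib.P099.Defs

namespace Vale.Agent.Lib.P099

open MeasureTheory

/-- affine basis from a nondegenerate triangle -/
noncomputable def triBasis (P : Fin 3 → ℂ) (hP : AffineIndependent ℝ P) : AffineBasis (Fin 3) ℝ ℂ :=
  ⟨P, hP, by
    rw [hP.affineSpan_eq_top_iff_card_eq_finrank_add_one]
    simp [Complex.finrank_real_complex]⟩

lemma triBasis_apply (P : Fin 3 → ℂ) (hP : AffineIndependent ℝ P) (i : Fin 3) :
    triBasis P hP i = P i := rfl

lemma mem_table_iff (P : Fin 3 → ℂ) (hP : AffineIndependent ℝ P) (x : ℂ) :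
    x ∈ table P ↔ ∀ i, 0 < (triBasis P hP).coord i x := by
  have h := (triBasis P hP).interior_convexHull
  have h2 : Set.range (triBasis P hP) = Set.range P := rfl
  rw [h2] at h
  unfold table
  rw [h]
  rfl

lemma sum_fin3 {M : Type*} [AddCommMonoid M] (f : Fin 3 → M) (i : Fin 3) :
    ∑ j, f j = f i + f (i + 1) + f (i + 2) := by
  rw [Fin.sum_univ_three]
  fin_cases i
  · rfl
  · show f 0 + f 1 + f 2 = f 1 + f 2 + f 0
    abel
  · show f 0 + f 1 + f 2 = f 2 + f 0 + f 1
    abel

lemma mem_openSegment_of_coord (P : Fin 3 → ℂ) (hP : AffineIndependent ℝ P) (i : Fin 3) (p : ℂ)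
    (h0 : (triBasis P hP).coord (i + 2) p = 0) (h1 : 0 < (triBasis P hP).coord i p)
    (h2 : 0 < (triBasis P hP).coord (i + 1) p) : p ∈ openSegment ℝ (P i) (P (i + 1)) := by
  have hs := (triBasis P hP).sum_coord_apply_eq_one p
  have hc := (triBasis P hP).linear_combination_coord_eq_self p
  rw [sum_fin3 _ i] at hs hc
  rw [h0] at hs hc
  refine ⟨_, _, h1, h2, by linarith, ?_⟩
  simpa [triBasis_apply] using hc

lemma mirror_eq (w v : ℂ) (hw : w ≠ 0) :
    mirror w v = -v + ((2 * ((starRingEnd ℂ) w * v).re / Complex.normSq w : ℝ) : ℂ) * w := by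
  unfold mirror
  have hcw : (starRingEnd ℂ) w ≠ 0 := by simpa using hw
  have hn : (Complex.normSq w : ℂ) ≠ 0 := by
    simpa [Complex.normSq_eq_zero] using hw
  have h1 : (Complex.normSq w : ℂ) = w * (starRingEnd ℂ) w := (Complex.mul_conj w).symm
  have h2 : ((((starRingEnd ℂ) w * v).re : ℝ) : ℂ) = ((starRingEnd ℂ) w * v + w * (starRingEnd ℂ) v) / 2 := by
    rw [Complex.re_eq_add_conj]
    simp
  push_cast
  rw [h2, h1]
  field_simp
  ring

lemma norm_mirror (w v : ℂ) (hw : w ≠ 0) : ‖mirror w v‖ = ‖v‖ := by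
  unfold mirror
  have : ‖w‖ ≠ 0 := by simpa using hw
  simp
  field_simp

lemma linear_mirror (L : ℂ →ₗ[ℝ] ℝ) (w v : ℂ) (hw : w ≠ 0) (hL : L w = 0) :
    L (mirror w v) = - L v := by
  rw [mirror_eq w v hw]
  rw [map_add, map_neg]
  have : (((2 * ((starRingEnd ℂ) w * v).re / Complex.normSq w : ℝ) : ℂ) * w) =
      (2 * ((starRingEnd ℂ) w * v).re / Complex.normSq w : ℝ) • w := by
    simp
  rw [this, map_smul, hL]
  simp

/-- direction (in ℝ/ℤ) of a vector -/
noncomputable def argDir (w : ℂ) : UnitAddCircle := ((Complex.arg w / (2 * Real.pi) : ℝ) : UnitAddCircle)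

lemma dirVec_coe (x : ℝ) : dirVec (x : UnitAddCircle) = Complex.exp ((2 * Real.pi * x : ℝ) * Complex.I) := by
  unfold dirVec
  rw [AddCircle.toCircle_apply_mk, Circle.coe_exp]
  simp

lemma dirVec_argDir (w : ℂ) (hw : w ≠ 0) : dirVec (argDir w) = w / ‖w‖ := by
  unfold argDir
  rw [dirVec_coe]
  have h : (2 * Real.pi * (Complex.arg w / (2 * Real.pi)) : ℝ) = Complex.arg w := by
    field_simp
  rw [h]
  have h2 := Complex.norm_mul_exp_arg_mul_I w
  have h3 : (‖w‖ : ℂ) ≠ 0 := by simpa using hw
  field_simp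
  rw [mul_comm]; exact h2

lemma dirVec_add (a b : UnitAddCircle) : dirVec (a + b) = dirVec a * dirVec b := by
  unfold dirVec; rw [AddCircle.toCircle_add]; simp

lemma dirVec_neg (a : UnitAddCircle) : dirVec (-a) = (starRingEnd ℂ) (dirVec a) := by
  unfold dirVec; rw [AddCircle.toCircle_neg]; exact Circle.coe_inv_eq_conj _

lemma norm_dirVec (a : UnitAddCircle) : ‖dirVec a‖ = 1 :=
  Circle.norm_coe _

lemma dirVec_injective : Function.Injective dirVec := by
  intro a b h
  unfold dirVec at h
  exact AddCircle.injective_toCircle one_ne_zero (Subtype.ext h)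

lemma continuous_dirVec : Continuous dirVec := by
  unfold dirVec
  exact continuous_subtype_val.comp (AddCircle.continuous_toCircle)

lemma dirVec_refl (w : ℂ) (hw : w ≠ 0) (θ : UnitAddCircle) :
    dirVec (argDir w + argDir w - θ) = mirror w (dirVec θ) := by
  rw [sub_eq_add_neg, dirVec_add, dirVec_add, dirVec_neg, dirVec_argDir w hw]
  unfold mirror
  have hcw : (starRingEnd ℂ) w ≠ 0 := by simpa using hw
  have h3 : (‖w‖ : ℂ) ≠ 0 := by simpa using hw
  have h1 : w * (starRingEnd ℂ) w = (‖w‖ : ℂ) ^ 2 := Complex.mul_conj' w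
  field_simp
  rw [← h1]; ring

lemma coord_add_smul (b : AffineBasis (Fin 3) ℝ ℂ) (k : Fin 3) (x v : ℂ) (t : ℝ) :
    b.coord k (x + t * v) = b.coord k x + t * (b.coord k).linear v := by
  have h : x + (t : ℂ) * v = (t • v) +ᵥ x := by
    simp [add_comm]
  rw [h, AffineMap.map_vadd, map_smul]
  simp [add_comm]

lemma side_ne (P : Fin 3 → ℂ) (hP : AffineIndependent ℝ P) (i : Fin 3) : P (i + 1) - P i ≠ 0 := by
  intro h
  have h1 : P (i + 1) = P i := sub_eq_zero.mp h
  have h2 := hP.injective h1
  fin_cases i <;> simp at h2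

lemma coord_linear_side (P : Fin 3 → ℂ) (hP : AffineIndependent ℝ P) (i : Fin 3) :
    ((triBasis P hP).coord (i + 2)).linear (P (i + 1) - P i) = 0 := by
  have h := ((triBasis P hP).coord (i + 2)).linearMap_vsub (P (i + 1)) (P i)
  simp only [vsub_eq_sub] at h
  rw [h]
  have h1 : (triBasis P hP).coord (i + 2) (P (i + 1)) = 0 := by
    have := (triBasis P hP).coord_apply_ne (i := i + 2) (j := i + 1) (by fin_cases i <;> simp)
    simpa [triBasis_apply] using this
  have h2 : (triBasis P hP).coord (i + 2) (P i) = 0 := by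
    have := (triBasis P hP).coord_apply_ne (i := i + 2) (j := i) (by fin_cases i <;> simp)
    simpa [triBasis_apply] using this
  rw [h1, h2]; simp

/-- A point close to the middle of a side, moving towards that side, is reflected once. -/
lemma travel_near_side (P : Fin 3 → ℂ) (hP : AffineIndependent ℝ P) (i : Fin 3) (M : ℂ) (r : ℝ)
    (hr : 0 < r)
    (hM : ∀ y, ‖y - M‖ < 3 * r → 0 < (triBasis P hP).coord i y ∧ 0 < (triBasis P hP).coord (i + 1) y)
    (θ : UnitAddCircle) (x : ℂ) (hx : ‖x - M‖ < r)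
    (hx0 : 0 < (triBasis P hP).coord (i + 2) x)
    (hx1 : (triBasis P hP).coord (i + 2) x < 2 * r * (-((triBasis P hP).coord (i + 2)).linear (dirVec θ))) :
    ∃ y, Travel P (2 * r) (x, θ) (y, argDir (P (i + 1) - P i) + argDir (P (i + 1) - P i) - θ) := by
  set b := triBasis P hP with hb
  set c := -(b.coord (i + 2)).linear (dirVec θ) with hc
  set w := P (i + 1) - P i with hw
  have hw0 : w ≠ 0 := side_ne P hP i
  set θ' := argDir w + argDir w - θ with hθ'
  have hθ'v : dirVec θ' = mirror w (dirVec θ) := dirVec_refl w hw0 θ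
  have hcpos : 0 < c := by
    by_contra hcon
    have : 2 * r * c ≤ 0 := mul_nonpos_of_nonneg_of_nonpos (by linarith) (by linarith)
    linarith
  set s := b.coord (i + 2) x / c with hs
  have hspos : 0 < s := div_pos hx0 hcpos
  have hs2 : s < 2 * r := by
    rw [hs, div_lt_iff₀ hcpos]; exact hx1
  have hsc : s * c = b.coord (i + 2) x := by
    rw [hs]; field_simp
  set u := 2 * r - s with hu
  have hupos : 0 < u := by linarith
  set p := x + s * dirVec θ with hp
  set y := p + u * dirVec θ' with hy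
  have hpM : ‖p - M‖ < 3 * r := by
    have : p - M = (x - M) + s * dirVec θ := by rw [hp]; ring
    rw [this]
    calc ‖(x - M) + s * dirVec θ‖ ≤ ‖x - M‖ + ‖(s : ℂ) * dirVec θ‖ := norm_add_le _ _
      _ = ‖x - M‖ + s := by
        rw [norm_mul, norm_dirVec]; simp [abs_of_pos hspos]
      _ < 3 * r := by linarith
  have hyM : ‖y - M‖ < 3 * r := by
    have : y - M = (x - M) + s * dirVec θ + u * dirVec θ' := by rw [hy, hp]; ring
    rw [this]
    calc ‖(x - M) + s * dirVec θ + u * dirVec θ'‖
        ≤ ‖x - M‖ + ‖(s : ℂ) * dirVec θ‖ + ‖(u : ℂ) * dirVec θ'‖ := norm_add₃_le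
      _ = ‖x - M‖ + s + u := by
        rw [norm_mul, norm_mul, norm_dirVec, norm_dirVec]; simp [abs_of_pos hspos, abs_of_pos hupos]
      _ < 3 * r := by linarith
  have hxM : ‖x - M‖ < 3 * r := by linarith
  have hpk : b.coord (i + 2) p = 0 := by
    rw [hp, coord_add_smul]
    have : (b.coord (i + 2)).linear (dirVec θ) = -c := by rw [hc]; ring
    rw [this]; linarith
  have hyk : 0 < b.coord (i + 2) y := by
    rw [hy, coord_add_smul, hpk, hθ'v, linear_mirror _ w _ hw0 (coord_linear_side P hP i)]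
    have : -(b.coord (i + 2)).linear (dirVec θ) = c := by rw [hc]
    rw [this]; positivity
  have hall : ∀ z, ‖z - M‖ < 3 * r → 0 < b.coord (i + 2) z → z ∈ table P := by
    intro z hz hzk
    rw [mem_table_iff P hP]
    intro j
    have hj : j = i ∨ j = i + 1 ∨ j = i + 2 := by
      fin_cases i <;> fin_cases j <;> simp
    rcases hj with rfl | rfl | rfl
    · exact (hM z hz).1
    · exact (hM z hz).2
    · exact hzk
  refine ⟨y, ?_⟩
  have key := Travel.bounce (P := P) x θ θ' s u i hspos hupos (hall x hxM hx0)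
    (mem_openSegment_of_coord P hP i p hpk (hM p hpM).1 (hM p hpM).2) hθ'v (hall y hyM hyk)
  have hsu : s + u = 2 * r := by rw [hu]; ring
  rw [hsu] at key
  exact key

lemma Travel.mem_table {P : Fin 3 → ℂ} {t : ℝ} {z z' : ℂ × UnitAddCircle} (h : Travel P t z z') :
    z.1 ∈ table P ∧ z'.1 ∈ table P := by
  induction h with
  | flight x θ t ht hx hy => exact ⟨hx, hy⟩
  | bounce x θ θ' s u i hs hu hx hp hθ hy => exact ⟨hx, hy⟩
  | trans t t' z z' z'' h1 h2 ih1 ih2 => exact ⟨ih1.1, ih2.2⟩

lemma continuous_coord (b : AffineBasis (Fin 3) ℝ ℂ) (k : Fin 3) : Continuous (b.coord k) :=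
  (b.coord k).continuous_of_finiteDimensional

lemma continuous_coord_linear (b : AffineBasis (Fin 3) ℝ ℂ) (k : Fin 3) :
    Continuous (b.coord k).linear :=
  LinearMap.continuous_of_finiteDimensional _

lemma isOpen_table (P : Fin 3 → ℂ) : IsOpen (table P) := isOpen_interior

lemma volume_table_ne_top (P : Fin 3 → ℂ) : volume (table P) ≠ ⊤ := by
  have h1 : IsCompact (convexHull ℝ (Set.range P)) := (Set.finite_range P).isCompact_convexHull ℝ
  exact ((measure_mono interior_subset).trans_lt h1.measure_lt_top).ne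

lemma table_nonempty (P : Fin 3 → ℂ) (hP : AffineIndependent ℝ P) : (table P).Nonempty :=
  ⟨_, (triBasis P hP).centroid_mem_interior_convexHull⟩

lemma volume_table_ne_zero (P : Fin 3 → ℂ) (hP : AffineIndependent ℝ P) : volume (table P) ≠ 0 :=
  ((isOpen_table P).measure_pos volume (table_nonempty P hP)).ne'

lemma coord_vertex_self (P : Fin 3 → ℂ) (hP : AffineIndependent ℝ P) (i : Fin 3) :
    (triBasis P hP).coord i (P i) = 1 := by
  have := (triBasis P hP).coord_apply_eq i
  simpa [triBasis_apply] using this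

lemma coord_vertex_ne (P : Fin 3 → ℂ) (hP : AffineIndependent ℝ P) (i j : Fin 3) (h : i ≠ j) :
    (triBasis P hP).coord i (P j) = 0 := by
  have := (triBasis P hP).coord_apply_ne h
  simpa [triBasis_apply] using this

/-- the reflection of directions in the side `i` -/
noncomputable def sideRefl (P : Fin 3 → ℂ) (i : Fin 3) (θ : UnitAddCircle) : UnitAddCircle :=
  argDir (P (i + 1) - P i) + argDir (P (i + 1) - P i) - θ

lemma sideRefl_invol (P : Fin 3 → ℂ) (i : Fin 3) (θ : UnitAddCircle) :
    sideRefl P i (sideRefl P i θ) = θ := by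
  unfold sideRefl; abel

lemma measurePreserving_sideRefl (P : Fin 3 → ℂ) (i : Fin 3) :
    MeasurePreserving (sideRefl P i) volume volume := by
  unfold sideRefl
  exact Measure.measurePreserving_sub_left volume _

/-- a vector killed by the linear part of the opposite barycentric coordinate is fixed by the mirror -/
lemma sideRefl_eq_self_of_linear_eq_zero (P : Fin 3 → ℂ) (hP : AffineIndependent ℝ P) (i : Fin 3)
    (θ : UnitAddCircle) (h : ((triBasis P hP).coord (i + 2)).linear (dirVec θ) = 0) :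
    sideRefl P i θ = θ := by
  apply dirVec_injective
  unfold sideRefl
  set w := P (i + 1) - P i with hw
  have hw0 : w ≠ 0 := side_ne P hP i
  rw [dirVec_refl w hw0]
  set L := ((triBasis P hP).coord (i + 2)).linear with hL
  have hLw : L w = 0 := coord_linear_side P hP i
  set v := dirVec θ with hv
  -- decompose v = α w + β (I w)
  set q := v / w with hq
  have hvq : v = (q.re : ℝ) • w + (q.im : ℝ) • (Complex.I * w) := by
    have : v = q * w := by rw [hq]; field_simp
    conv_lhs => rw [this, ← Complex.re_add_im q]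
    simp only [Complex.real_smul]
    ring
  have hLI : L (Complex.I * w) ≠ 0 := by
    intro hLI
    -- then L = 0, contradiction
    have hzero : ∀ z, L z = 0 := by
      intro z
      set q' := z / w with hq'
      have hz : z = (q'.re : ℝ) • w + (q'.im : ℝ) • (Complex.I * w) := by
        have : z = q' * w := by rw [hq']; field_simp
        conv_lhs => rw [this, ← Complex.re_add_im q']
        simp only [Complex.real_smul]
        ring
      rw [hz, map_add, map_smul, map_smul, hLw, hLI]; simp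
    have h1 := ((triBasis P hP).coord (i + 2)).linearMap_vsub (P (i + 2)) (P i)
    simp only [vsub_eq_sub] at h1
    rw [← hL, hzero, coord_vertex_self, coord_vertex_ne P hP (i + 2) i (by fin_cases i <;> simp)] at h1
    norm_num at h1
  have hβ : q.im = 0 := by
    have := h
    rw [hvq, map_add, map_smul, map_smul, hLw] at this
    simp only [smul_eq_mul, mul_zero, zero_add, mul_eq_zero] at this
    rcases this with h | h
    · exact h
    · exact absurd h hLI
  have hv2 : v = (q.re : ℂ) * w := by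
    rw [hvq, hβ]; simp
  rw [hv2]
  unfold mirror
  have hcw : (starRingEnd ℂ) w ≠ 0 := by simpa using hw0
  simp only [map_mul, Complex.conj_ofReal]
  field_simp

lemma exists_radius (P : Fin 3 → ℂ) (hP : AffineIndependent ℝ P) (i : Fin 3) :
    ∃ r : ℝ, 0 < r ∧ ∀ y, ‖y - (P i + P (i + 1)) / 2‖ < 3 * r →
      0 < (triBasis P hP).coord i y ∧ 0 < (triBasis P hP).coord (i + 1) y := by
  set b := triBasis P hP with hb
  set M := (P i + P (i + 1)) / 2 with hM
  have hMeq : M = P i + ((1 / 2 : ℝ) : ℂ) * (P (i + 1) - P i) := by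
    rw [hM]; push_cast; ring
  have hlin : ∀ k, (b.coord k).linear (P (i + 1) - P i) = b.coord k (P (i + 1)) - b.coord k (P i) := by
    intro k
    have h := (b.coord k).linearMap_vsub (P (i + 1)) (P i)
    simpa only [vsub_eq_sub] using h
  have hne : i ≠ i + 1 := by fin_cases i <;> simp
  have h1 : b.coord i M = 1 / 2 := by
    rw [hMeq, coord_add_smul, hlin, coord_vertex_self, coord_vertex_ne P hP i (i + 1) hne]; norm_num
  have h2 : b.coord (i + 1) M = 1 / 2 := by
    rw [hMeq, coord_add_smul, hlin, coord_vertex_self, coord_vertex_ne P hP (i + 1) i hne.symm]; norm_num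
  have hopen : IsOpen {y | 0 < b.coord i y ∧ 0 < b.coord (i + 1) y} :=
    (isOpen_lt continuous_const (continuous_coord b i)).inter
      (isOpen_lt continuous_const (continuous_coord b (i + 1)))
  have hmem : M ∈ {y | 0 < b.coord i y ∧ 0 < b.coord (i + 1) y} := by
    constructor
    · rw [h1]; norm_num
    · rw [h2]; norm_num
  obtain ⟨ε, hε, hball⟩ := Metric.isOpen_iff.mp hopen M hmem
  refine ⟨ε / 3, by positivity, fun y hy => ?_⟩
  apply hball
  rw [Metric.mem_ball, dist_eq_norm]
  linarith

lemma ae_sideRefl (P : Fin 3 → ℂ) (hP : AffineIndependent ℝ P) (B : Set UnitAddCircle)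
    (hB : MeasurableSet B) (hinv : IsInvariant P (table P ×ˢ B)) (i : Fin 3) :
    volume {θ | ¬ (sideRefl P i θ ∈ B ↔ θ ∈ B)} = 0 := by
  set b := triBasis P hP with hb
  set M := (P i + P (i + 1)) / 2 with hM
  obtain ⟨r, hr, hrM⟩ := exists_radius P hP i
  set ρ := sideRefl P i with hρ
  have hρm : Measurable ρ := (measurePreserving_sideRefl P i).measurable
  set N : Set UnitAddCircle := {θ | ¬ (ρ θ ∈ B ↔ θ ∈ B)} with hN
  have hNm : MeasurableSet N := by
    have h1 : MeasurableSet {θ | ρ θ ∈ B} := hρm hB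
    have : N = ({θ | ρ θ ∈ B} ∩ B ∪ ({θ | ρ θ ∈ B}ᶜ ∩ Bᶜ))ᶜ := by
      ext θ
      simp only [hN, Set.mem_ofPred_eq, Set.mem_compl_iff, Set.mem_union, Set.mem_inter_iff]
      tauto
    rw [this]
    exact ((h1.inter hB).union (h1.compl.inter hB.compl)).compl
  set c : UnitAddCircle → ℝ := fun θ => -(b.coord (i + 2)).linear (dirVec θ) with hc
  have hcc : Continuous c := ((continuous_coord_linear b (i + 2)).comp continuous_dirVec).neg
  set E : Set (ℂ × UnitAddCircle) :=
    {z | z.2 ∈ N ∧ ‖z.1 - M‖ < r ∧ 0 < b.coord (i + 2) z.1 ∧ b.coord (i + 2) z.1 < 2 * r * c z.2} with hE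
  have hEm : MeasurableSet E := by
    have m1 : MeasurableSet {z : ℂ × UnitAddCircle | z.2 ∈ N} := measurable_snd hNm
    have m2 : MeasurableSet {z : ℂ × UnitAddCircle | ‖z.1 - M‖ < r} :=
      (isOpen_lt (by fun_prop) continuous_const).measurableSet
    have m3 : MeasurableSet {z : ℂ × UnitAddCircle | 0 < b.coord (i + 2) z.1} :=
      (isOpen_lt continuous_const ((continuous_coord b (i + 2)).comp continuous_fst)).measurableSet
    have m4 : MeasurableSet {z : ℂ × UnitAddCircle | b.coord (i + 2) z.1 < 2 * r * c z.2} :=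
      (isOpen_lt ((continuous_coord b (i + 2)).comp continuous_fst)
        (continuous_const.mul (hcc.comp continuous_snd))).measurableSet
    exact m1.inter (m2.inter (m3.inter m4))
  -- E is contained in the bad set at time 2r
  have hEsub : E ⊆ {z | ∃ w, Flow P (2 * r) z w ∧ ¬ (w ∈ table P ×ˢ B ↔ z ∈ table P ×ˢ B)} := by
    rintro ⟨x, θ⟩ ⟨h1, h2, h3, h4⟩
    obtain ⟨y, hy⟩ := travel_near_side P hP i M r hr hrM θ x h2 h3 h4
    refine ⟨(y, ρ θ), Or.inl ⟨by positivity, hy⟩, ?_⟩
    have ht := hy.mem_table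
    simp only [Set.mem_prod, ht.1, ht.2, true_and]
    exact h1
  have hE0 : liouville P E = 0 := measure_mono_null hEsub (hinv (2 * r))
  have hE1 : ((volume.restrict (table P)).prod (volume : Measure UnitAddCircle)) E = 0 := by
    unfold liouville at hE0
    rw [Measure.smul_apply, smul_eq_mul, mul_eq_zero] at hE0
    rcases hE0 with h | h
    · exact absurd (ENNReal.inv_eq_zero.mp h) (volume_table_ne_top P)
    · exact h
  rw [Measure.prod_apply_symm hEm, lintegral_eq_zero_iff (measurable_measure_prodMk_right hEm)] at hE1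
  -- slices have positive measure
  have hslice : ∀ θ, θ ∈ N → 0 < c θ → (volume.restrict (table P)) ((fun x => (x, θ)) ⁻¹' E) ≠ 0 := by
    intro θ hθ hcθ
    set V : Set ℂ := {x | ‖x - M‖ < r ∧ 0 < b.coord (i + 2) x ∧ b.coord (i + 2) x < 2 * r * c θ} with hV
    have hVeq : (fun x => (x, θ)) ⁻¹' E = V := by
      ext x
      simp only [hE, hV, Set.mem_preimage, Set.mem_ofPred_eq, hθ, true_and]
    have hVopen : IsOpen V := by
      have o1 : IsOpen {x : ℂ | ‖x - M‖ < r} := isOpen_lt (by fun_prop) continuous_const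
      have o2 : IsOpen {x : ℂ | 0 < b.coord (i + 2) x} :=
        isOpen_lt continuous_const (continuous_coord b (i + 2))
      have o3 : IsOpen {x : ℂ | b.coord (i + 2) x < 2 * r * c θ} :=
        isOpen_lt (continuous_coord b (i + 2)) continuous_const
      exact o1.inter (o2.inter o3)
    have hVsub : V ⊆ table P := by
      intro x hx
      rw [mem_table_iff P hP]
      intro j
      have hj : j = i ∨ j = i + 1 ∨ j = i + 2 := by
        fin_cases i <;> fin_cases j <;> simp
      have hx3 : ‖x - M‖ < 3 * r := by linarith [hx.1]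
      rcases hj with rfl | rfl | rfl
      · exact (hrM x hx3).1
      · exact (hrM x hx3).2
      · exact hx.2.1
    have hVne : V.Nonempty := by
      -- M + δ (P (i+2) - M)
      have hMk : b.coord (i + 2) M = 0 := by
        have hMeq : M = P i + ((1 / 2 : ℝ) : ℂ) * (P (i + 1) - P i) := by
          rw [hM]; push_cast; ring
        rw [hMeq, coord_add_smul, coord_linear_side P hP i,
          coord_vertex_ne P hP (i + 2) i (by fin_cases i <;> simp)]
        simp
      have hlin : (b.coord (i + 2)).linear (P (i + 2) - M) = 1 := by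
        have h := (b.coord (i + 2)).linearMap_vsub (P (i + 2)) M
        simp only [vsub_eq_sub] at h
        rw [h, coord_vertex_self, hMk]; simp
      set D := ‖P (i + 2) - M‖ with hD
      set δ := min (r / (D + 1)) (r * c θ) / 2 with hδ
      have hDnn : 0 ≤ D := norm_nonneg _
      have hmpos : 0 < min (r / (D + 1)) (r * c θ) := lt_min (by positivity) (by positivity)
      have hδpos : 0 < δ := by rw [hδ]; positivity
      have hδ1 : δ < r / (D + 1) := by
        have := min_le_left (r / (D + 1)) (r * c θ)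
        rw [hδ]; linarith
      have hδ2 : δ < r * c θ := by
        have := min_le_right (r / (D + 1)) (r * c θ)
        rw [hδ]; linarith
      refine ⟨M + (δ : ℂ) * (P (i + 2) - M), ?_, ?_, ?_⟩
      · have : M + (δ : ℂ) * (P (i + 2) - M) - M = (δ : ℂ) * (P (i + 2) - M) := by ring
        rw [this, norm_mul, ← hD]
        simp only [Complex.norm_real, Real.norm_eq_abs, abs_of_pos hδpos]
        have h1 : δ * (D + 1) < r := by rwa [lt_div_iff₀ (by positivity)] at hδ1
        nlinarith
      · rw [coord_add_smul, hMk, hlin]; linarith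
      · rw [coord_add_smul, hMk, hlin]; nlinarith
    rw [hVeq, Measure.restrict_apply hVopen.measurableSet, Set.inter_eq_left.mpr hVsub]
    exact (hVopen.measure_pos volume hVne).ne'
  have hpos : volume (N ∩ {θ | 0 < c θ}) = 0 := by
    have : ∀ᵐ θ ∂(volume : Measure UnitAddCircle), θ ∉ N ∩ {θ | 0 < c θ} := by
      filter_upwards [hE1] with θ hθ hmem
      exact hslice θ hmem.1 hmem.2 hθ
    exact measure_eq_zero_iff_ae_notMem.mpr this
  have hcρ : ∀ θ, c (ρ θ) = - c θ := by
    intro θ
    simp only [hc, hρ, sideRefl]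
    rw [dirVec_refl _ (side_ne P hP i), linear_mirror _ _ _ (side_ne P hP i) (coord_linear_side P hP i)]
  have hNρ : ∀ θ, ρ θ ∈ N ↔ θ ∈ N := by
    intro θ
    simp only [hN, Set.mem_ofPred_eq, hρ, sideRefl_invol]
    tauto
  have hneg : volume (N ∩ {θ | c θ < 0}) = 0 := by
    have h1 : N ∩ {θ | c θ < 0} = ρ ⁻¹' (N ∩ {θ | 0 < c θ}) := by
      ext θ
      simp only [Set.mem_inter_iff, Set.mem_ofPred_eq, Set.mem_preimage, hNρ, hcρ]
      constructor
      · rintro ⟨h1, h2⟩; exact ⟨h1, by linarith⟩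
      · rintro ⟨h1, h2⟩; exact ⟨h1, by linarith⟩
    rw [h1]
    exact (measurePreserving_sideRefl P i).quasiMeasurePreserving.preimage_null hpos
  have hsub : N ⊆ (N ∩ {θ | 0 < c θ}) ∪ (N ∩ {θ | c θ < 0}) := by
    intro θ hθ
    rcases lt_trichotomy (c θ) 0 with h | h | h
    · exact Or.inr ⟨hθ, h⟩
    · exfalso
      have h0 : (b.coord (i + 2)).linear (dirVec θ) = 0 := by
        simp only [hc] at h; linarith
      have := sideRefl_eq_self_of_linear_eq_zero P hP i θ h0
      apply hθ
      rw [hρ, this]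
    · exact Or.inl ⟨hθ, h⟩
  exact measure_mono_null hsub (measure_union_null hpos hneg)

lemma fin3_add (i : Fin 3) : i + 2 + 1 = i := by fin_cases i <;> rfl

/-- the rotation obtained from the two sides at the vertex `P i` -/
noncomputable def vertexRot (P : Fin 3 → ℂ) (i : Fin 3) : UnitAddCircle :=
  (argDir (P (i + 1) - P i) + argDir (P (i + 1) - P i)) -
    (argDir (P (i + 2 + 1) - P (i + 2)) + argDir (P (i + 2 + 1) - P (i + 2)))

lemma sideRefl_comp (P : Fin 3 → ℂ) (i : Fin 3) (θ : UnitAddCircle) :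
    sideRefl P i (sideRefl P (i + 2) θ) = vertexRot P i + θ := by
  unfold sideRefl vertexRot; abel

lemma vertexRot_eq (P : Fin 3 → ℂ) (hP : AffineIndependent ℝ P) (i : Fin 3) :
    vertexRot P i =
      ((Complex.arg ((P (i + 1) - P i) / (P (i + 2) - P i)) / Real.pi : ℝ) : UnitAddCircle) := by
  apply dirVec_injective
  have hw1 : P (i + 1) - P i ≠ 0 := side_ne P hP i
  have hw2 : P (i + 2 + 1) - P (i + 2) ≠ 0 := side_ne P hP (i + 2)
  unfold vertexRot
  rw [sub_eq_add_neg, dirVec_add, dirVec_neg, dirVec_add, dirVec_add, dirVec_argDir _ hw1,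
    dirVec_argDir _ hw2, dirVec_coe, fin3_add]
  rw [fin3_add] at hw2
  set w1 := P (i + 1) - P i with hw1d
  set w2 := P (i + 2) - P i with hw2d
  have hw2' : w2 ≠ 0 := by
    intro h; apply hw2
    have : P i - P (i + 2) = -w2 := by rw [hw2d]; ring
    rw [this, h]; simp
  have e1 : P i - P (i + 2) = -w2 := by rw [hw2d]; ring
  rw [e1]
  set q := w1 / w2 with hq
  have hq0 : q ≠ 0 := div_ne_zero hw1 hw2'
  have h2 : (2 * Real.pi * (Complex.arg q / Real.pi) : ℝ) = Complex.arg q + Complex.arg q := by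
    field_simp; ring
  rw [h2]
  push_cast
  rw [add_mul, Complex.exp_add]
  have h3 : Complex.exp (Complex.arg q * Complex.I) = q / ‖q‖ := by
    have h4 := Complex.norm_mul_exp_arg_mul_I q
    have h5 : (‖q‖ : ℂ) ≠ 0 := by simpa using hq0
    field_simp
    rw [mul_comm]; exact h4
  rw [h3, hq, norm_div, norm_neg]
  have n1 : (‖w1‖ : ℂ) ≠ 0 := by simpa using hw1
  have n2 : (‖w2‖ : ℂ) ≠ 0 := by simpa using hw2'
  have c2 : (starRingEnd ℂ) w2 ≠ 0 := by simpa using hw2'
  have hc : w2 * (starRingEnd ℂ) w2 = (‖w2‖ : ℂ) ^ 2 := Complex.mul_conj' w2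
  simp only [map_mul, map_div₀, map_neg, Complex.conj_ofReal]
  push_cast
  field_simp
  have : (‖w2‖ : ℂ) ^ 4 = (w2 * (starRingEnd ℂ) w2) ^ 2 := by rw [hc]; ring
  rw [this]; ring

lemma addOrderOf_vertexRot (P : Fin 3 → ℂ) (hP : AffineIndependent ℝ P) (i : Fin 3)
    (hi : ¬ ∃ q : ℚ, EuclideanGeometry.angle (P (i + 1)) (P i) (P (i + 2)) = q * Real.pi) :
    addOrderOf (vertexRot P i) = 0 := by
  rw [addOrderOf_eq_zero_iff']
  intro n hn h
  apply hi
  rw [vertexRot_eq P hP i] at h
  have hw1 : P (i + 1) - P i ≠ 0 := side_ne P hP i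
  have hw2 : P (i + 2) - P i ≠ 0 := by
    have := side_ne P hP (i + 2)
    rw [fin3_add] at this
    intro h; apply this
    have e : P i - P (i + 2) = -(P (i + 2) - P i) := by ring
    rw [e, h]; simp
  have hang : EuclideanGeometry.angle (P (i + 1)) (P i) (P (i + 2)) =
      |Complex.arg ((P (i + 1) - P i) / (P (i + 2) - P i))| := by
    unfold EuclideanGeometry.angle
    simp only [vsub_eq_sub]
    exact Complex.angle_eq_abs_arg hw1 hw2
  rw [hang]
  set a := Complex.arg ((P (i + 1) - P i) / (P (i + 2) - P i)) with ha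
  rw [← AddCircle.coe_nsmul, AddCircle.coe_eq_zero_iff] at h
  obtain ⟨m, hm⟩ := h
  have hpi : Real.pi ≠ 0 := Real.pi_ne_zero
  have hn' : (n : ℝ) ≠ 0 := by exact_mod_cast hn.ne'
  have ha2 : a = (m : ℝ) / n * Real.pi := by
    simp only [zsmul_eq_mul, mul_one, nsmul_eq_mul] at hm
    field_simp at hm ⊢
    linarith
  refine ⟨|(m : ℚ) / n|, ?_⟩
  rw [ha2, abs_mul, abs_of_pos Real.pi_pos]
  push_cast
  rfl

end Vale.Agent.Lib.P099
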