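import Mathlib

/-!
# Billiards in a triangle: basic definitions

The plane is `ℂ`; a direction is a point `θ` of `ℝ/ℤ` (`UnitAddCircle`), standing for the
unit vector `e^{2π i θ}`, so that the uniform probability measure on directions is `volume`.
-/

namespace Vale.Agent.Lib.P099

open MeasureTheory

/-- The unit vector `e^{2π i θ}` attached to a direction `θ ∈ ℝ/ℤ`. -/
noncomputable def dirVec (θ : UnitAddCircle) : ℂ := (AddCircle.toCircle θ : ℂ)

/-- The billiard table: the open triangle with vertices `P 0`, `P 1`, `P 2`. -/
def table (P : Fin 3 → ℂ) : Set ℂ := interior (convexHull ℝ (Set.range P))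

/-- Mirror image of the vector `v` in the line `ℝ w` (tangential part kept, normal part
reversed); in complex terms `w * conj v / conj w`. -/
noncomputable def mirror (w v : ℂ) : ℂ := w * (starRingEnd ℂ) v / (starRingEnd ℂ) w

/-- `Travel P t z z'`: the billiard trajectory that starts at the phase point `z` (position in
the open triangle, direction) is at the phase point `z'` after time `t ≥ 0`, having met the
boundary only at finitely many points of the open sides, with specular reflection there. -/
inductive Travel (P : Fin 3 → ℂ) : ℝ → ℂ × UnitAddCircle → ℂ × UnitAddCircle → Prop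
  | flight (x : ℂ) (θ : UnitAddCircle) (t : ℝ) : 0 ≤ t → x ∈ table P →
      x + t * dirVec θ ∈ table P → Travel P t (x, θ) (x + t * dirVec θ, θ)
  | bounce (x : ℂ) (θ θ' : UnitAddCircle) (s u : ℝ) (i : Fin 3) : 0 < s → 0 < u →
      x ∈ table P → x + s * dirVec θ ∈ openSegment ℝ (P i) (P (i + 1)) →
      dirVec θ' = mirror (P (i + 1) - P i) (dirVec θ) →
      x + s * dirVec θ + u * dirVec θ' ∈ table P →
      Travel P (s + u) (x, θ) (x + s * dirVec θ + u * dirVec θ', θ')
  | trans (t t' : ℝ) (z z' z'' : ℂ × UnitAddCircle) :
      Travel P t z z' → Travel P t' z' z'' → Travel P (t + t') z z''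

/-- The graph of the billiard flow `Φ_t`, `t ∈ ℝ`: `Flow P t z w` means `Φ_t z = w`
(the flow is undefined on trajectories meeting a vertex, or sitting on a side at time `t`). -/
def Flow (P : Fin 3 → ℂ) (t : ℝ) (z w : ℂ × UnitAddCircle) : Prop :=
  (0 ≤ t ∧ Travel P t z w) ∨ (t ≤ 0 ∧ Travel P (-t) w z)

/-- The invariant probability measure: normalized area on the table times the uniform
probability measure on directions. -/
noncomputable def liouville (P : Fin 3 → ℂ) : Measure (ℂ × UnitAddCircle) :=
  (volume (table P))⁻¹ • ((volume.restrict (table P)).prod volume)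

/-- `A` is invariant mod null sets: `μ (Φ_t⁻¹ A ∆ A) = 0` for every real `t`. -/
def IsInvariant (P : Fin 3 → ℂ) (A : Set (ℂ × UnitAddCircle)) : Prop :=
  ∀ t : ℝ, liouville P {z | ∃ w, Flow P t z w ∧ ¬ (w ∈ A ↔ z ∈ A)} = 0

/-- The triangle is rational: all three angles are rational multiples of `π`. -/
def IsRational (P : Fin 3 → ℂ) : Prop :=
  ∀ i : Fin 3, ∃ q : ℚ, EuclideanGeometry.angle (P (i + 1)) (P i) (P (i + 2)) = q * Real.pi

end Vale.Agent.Lib.P099
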