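import Vale.Agent.Lib.P099.Plane

/-!
# Unfolding a fan of billiard trajectories
-/

namespace Vale.Agent.Lib.P099

/-- the open triangle with (positively oriented) vertices `a b c` -/
def InTri (a b c y : ℂ) : Prop := 0 < orient a b y ∧ 0 < orient b c y ∧ 0 < orient c a y

/-- `F` (a function of position and unit direction vector) is invariant under the billiard in the
triangle `a b c`, and takes values in `S` on trajectories through a vertex -/
structure Good (a b c : ℂ) (F : ℂ → ℂ → ℝ) (S : Set ℝ) : Prop where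
  free : ∀ (y v : ℂ) (t : ℝ), ‖v‖ = 1 → 0 ≤ t → InTri a b c y → InTri a b c (y + t * v) →
    F y v = F (y + t * v) v
  bounce : ∀ p q : ℂ, (p = a ∨ p = b ∨ p = c) → (q = a ∨ q = b ∨ q = c) → p ≠ q →
    ∀ (y v : ℂ) (s u ν : ℝ), ‖v‖ = 1 → 0 < s → 0 < u → 0 < ν → ν < 1 → InTri a b c y →
    y + s * v = p + ν * (q - p) → InTri a b c (y + s * v + u * mirror (q - p) v) →
    F y v = F (y + s * v + u * mirror (q - p) v) (mirror (q - p) v)
  sing : ∀ p : ℂ, (p = a ∨ p = b ∨ p = c) → ∀ (y v : ℂ) (τ : ℝ), ‖v‖ = 1 → τ ≠ 0 →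
    InTri a b c y → p = y + τ * v → F y v ∈ S

lemma orient_cyc (a b c : ℂ) : orient b c a = orient a b c := by
  simp [orient, cross]; ring

lemma orient_swap (a b c : ℂ) : orient b a c = - orient a b c := by
  simp [orient, cross]; ring

lemma inTri_cyc {a b c y : ℂ} : InTri b c a y ↔ InTri a b c y := by
  unfold InTri; tauto

lemma Good.cyc {a b c : ℂ} {F : ℂ → ℂ → ℝ} {S : Set ℝ} (h : Good a b c F S) : Good b c a F S where
  free := fun y v t hv ht hy hy' => h.free y v t hv ht (inTri_cyc.mp hy) (inTri_cyc.mp hy')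
  bounce := fun p q hp hq hpq y v s u ν hv hs hu hν0 hν1 hy hpt hy' =>
    h.bounce p q (by tauto) (by tauto) hpq y v s u ν hv hs hu hν0 hν1 (inTri_cyc.mp hy) hpt
      (inTri_cyc.mp hy')
  sing := fun p hp y v τ hv hτ hy hpt => h.sing p (by tauto) y v τ hv hτ (inTri_cyc.mp hy) hpt

/-- reflection in the line through `p` with direction `w` -/
noncomputable def refl (p w y : ℂ) : ℂ := p + mirror w (y - p)

/-- transport of a function by a reflection -/
noncomputable def reflF (p w : ℂ) (F : ℂ → ℂ → ℝ) : ℂ → ℂ → ℝ :=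
  fun y v => F (refl p w y) (mirror w v)

lemma refl_refl (p w y : ℂ) (hw : w ≠ 0) : refl p w (refl p w y) = y := by
  unfold refl
  have : p + mirror w (y - p) - p = mirror w (y - p) := by ring
  rw [this, mirror_mirror w _ hw]; ring

lemma refl_base (p w : ℂ) : refl p w p = p := by
  simp [refl, mirror]

lemma refl_tip (p q : ℂ) (h : q - p ≠ 0) : refl p (q - p) q = q := by
  unfold refl; rw [mirror_self _ h]; ring

lemma refl_add_smul (p w y v : ℂ) (t : ℝ) : refl p w (y + t * v) = refl p w y + t * mirror w v := by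
  unfold refl
  have : y + t * v - p = (y - p) + t * v := by ring
  rw [this, mirror_add, mirror_smul]; ring

lemma refl_sub (p w y z : ℂ) : refl p w y - refl p w z = mirror w (y - z) := by
  unfold refl
  have : mirror w (y - z) = mirror w (y - p) - mirror w (z - p) := by
    rw [← mirror_sub]; congr 1; ring
  rw [this]; ring

lemma orient_refl (p w a b c : ℂ) (hw : w ≠ 0) :
    orient (refl p w a) (refl p w b) (refl p w c) = - orient a b c := by
  unfold orient
  rw [refl_sub, refl_sub, cross_mirror_mirror w _ _ hw]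

lemma mirror_conj (w d v : ℂ) (hw : w ≠ 0) (hd : d ≠ 0) :
    mirror w (mirror (mirror w d) v) = mirror d (mirror w v) := by
  have hcw : (starRingEnd ℂ) w ≠ 0 := by simpa using hw
  have hcd : (starRingEnd ℂ) d ≠ 0 := by simpa using hd
  simp [mirror]
  field_simp

lemma inTri_refl (a b c y : ℂ) (hab : b - a ≠ 0) :
    InTri b a (refl a (b - a) c) y ↔ InTri a b c (refl a (b - a) y) := by
  set σ := refl a (b - a) with hσ
  have ha : σ a = a := refl_base a _
  have hb : σ b = b := refl_tip a b hab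
  have hy : σ (σ y) = y := refl_refl a _ y hab
  have e1 : orient b a y = orient a b (σ y) := by
    have := orient_refl a (b - a) b a (σ y) hab
    rw [← hσ, hb, ha, hy] at this
    rw [this, orient_swap]; ring
  have e2 : orient a (σ c) y = orient c a (σ y) := by
    have := orient_refl a (b - a) a c (σ y) hab
    rw [← hσ, ha, hy] at this
    rw [this, orient_swap]; ring
  have e3 : orient (σ c) b y = orient b c (σ y) := by
    have := orient_refl a (b - a) c b (σ y) hab
    rw [← hσ, hb, hy] at this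
    rw [this, orient_swap]; ring
  unfold InTri
  rw [e1, e2, e3]
  tauto

lemma Good.refl {a b c : ℂ} {F : ℂ → ℂ → ℝ} {S : Set ℝ} (h : Good a b c F S) (hab : b - a ≠ 0) :
    Good b a (refl a (b - a) c) (reflF a (b - a) F) S := by
  set w := b - a with hw
  set σ := Vale.Agent.Lib.P099.refl a w with hσ
  have ha : σ a = a := refl_base a _
  have hb : σ b = b := refl_tip a b hab
  have hinv : ∀ y, σ (σ y) = y := fun y => refl_refl a _ y hab
  have hvert : ∀ p, (p = b ∨ p = a ∨ p = σ c) → (σ p = a ∨ σ p = b ∨ σ p = c) := by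
    rintro p (rfl | rfl | rfl)
    · right; left; exact hb
    · left; exact ha
    · right; right; exact hinv c
  constructor
  · intro y v t hv ht hy hy'
    simp only [reflF]
    rw [refl_add_smul]
    apply h.free _ _ _ (by rw [norm_mirror w v hab, hv]) ht ((inTri_refl a b c y hab).mp hy)
    rw [← refl_add_smul]
    exact (inTri_refl a b c _ hab).mp hy'
  · intro p q hp hq hpq y v s u ν hv hs hu hν0 hν1 hy hpt hy'
    simp only [reflF]
    have hpq' : σ p ≠ σ q := by
      intro he; apply hpq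
      rw [← hinv p, ← hinv q, he]
    have hd : σ q - σ p ≠ 0 := sub_ne_zero.mpr (Ne.symm hpq')
    have hqp : q - p = mirror w (σ q - σ p) := by
      rw [hσ, refl_sub, mirror_mirror w _ hab]
    have hm : mirror w (mirror (q - p) v) = mirror (σ q - σ p) (mirror w v) := by
      rw [hqp, mirror_conj w _ v hab hd]
    rw [refl_add_smul, refl_add_smul, hm]
    apply h.bounce (σ p) (σ q) (hvert p hp) (hvert q hq) hpq' _ _ s u ν
      (by rw [norm_mirror w v hab, hv]) hs hu hν0 hν1 ((inTri_refl a b c y hab).mp hy)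
    · rw [← refl_add_smul, hpt, refl_add_smul, ← hσ, hσ, refl_sub]
    · rw [← hm, ← refl_add_smul, ← refl_add_smul]
      exact (inTri_refl a b c _ hab).mp hy'
  · intro p hp y v τ hv hτ hy hpt
    simp only [reflF]
    apply h.sing (σ p) (hvert p hp) _ _ τ (by rw [norm_mirror w v hab, hv]) hτ
      ((inTri_refl a b c y hab).mp hy)
    rw [hpt, hσ, refl_add_smul]

lemma orient_ray (p q x e : ℂ) (τ : ℝ) :
    orient p q (x + τ * e) = cross (p - x) (q - x) + τ * (cross e (p - x) - cross e (q - x)) := by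
  simp [orient, cross]; ring

lemma orient_eq_sum (a b c x : ℂ) :
    orient a b c = cross (a - x) (b - x) + cross (b - x) (c - x) + cross (c - x) (a - x) := by
  simp [orient, cross]; ring

lemma cross_vec (e B C : ℂ) :
    ((cross B C : ℝ) : ℂ) * e + ((cross C e : ℝ) : ℂ) * B + ((cross e B : ℝ) : ℂ) * C = 0 := by
  apply Complex.ext
  · simp [cross]; ring
  · simp [cross]; ring

lemma cross_lagrange (e₁ e₂ B A : ℂ) :
    cross e₁ e₂ * cross B A = cross e₁ B * cross e₂ A - cross e₁ A * cross e₂ B := by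
  simp [cross]; ring

lemma exitL (α β κ ω ω' ω'' Δ s s' : ℝ) (hα : 0 < α) (hβ : 0 < β) (hκ : 0 ≤ κ) (hω : 0 < ω)
    (hΔ : 0 < Δ) (E1 : Δ = ω' - ω + ω'') (E2 : α * ω' = β * ω'' + κ * ω)
    (hs : s * (α + β) = ω) (hs' : s' * (κ + β) = ω') :
    0 < ω' ∧ 0 < s ∧ s < s' ∧ (s' - s) * ((α + β) * (κ + β)) = β * Δ ∧
    (∀ τ, s < τ → τ < s' →
      0 < -ω + τ * (α + β) ∧ 0 < ω' - τ * (κ + β) ∧ 0 < ω'' + τ * (κ - α)) := by
  have hab : 0 < α + β := by linarith
  have hkb : 0 < κ + β := by linarith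
  have h1 : ω' * (α + β) = β * (Δ + ω) + κ * ω := by
    rw [E1]; linear_combination E2
  have hω' : 0 < ω' := by
    have : 0 < ω' * (α + β) := by rw [h1]; positivity
    exact (pos_iff_pos_of_mul_pos this).mpr hab
  have hs0 : 0 < s := by
    have : 0 < s * (α + β) := by rw [hs]; exact hω
    exact (pos_iff_pos_of_mul_pos this).mpr hab
  have hdiff : (s' - s) * ((α + β) * (κ + β)) = β * Δ := by
    have : (s' - s) * ((α + β) * (κ + β)) = (s' * (κ + β)) * (α + β) - (s * (α + β)) * (κ + β) := by ring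
    rw [this, hs, hs', h1]; ring
  have hlt : s < s' := by
    have : 0 < (s' - s) * ((α + β) * (κ + β)) := by rw [hdiff]; positivity
    have h2 : 0 < s' - s := (pos_iff_pos_of_mul_pos this).mpr (by positivity)
    linarith
  refine ⟨hω', hs0, hlt, hdiff, fun τ h1τ h2τ => ⟨?_, ?_, ?_⟩⟩
  · rw [← hs]; nlinarith
  · rw [← hs']; nlinarith
  · have fs : (ω'' + s * (κ - α)) * (α + β) = α * Δ := by
      have e : (ω'' + s * (κ - α)) * (α + β) = ω'' * (α + β) + (s * (α + β)) * (κ - α) := by ring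
      rw [e, hs]
      have : ω'' = Δ - ω' + ω := by linarith
      rw [this]; linear_combination (-1) * h1
    have fs' : (ω'' + s' * (κ - α)) * (κ + β) = κ * Δ := by
      have e : (ω'' + s' * (κ - α)) * (κ + β) = ω'' * (κ + β) + (s' * (κ + β)) * (κ - α) := by ring
      rw [e, hs']
      have : ω'' = Δ - ω' + ω := by linarith
      rw [this]; linear_combination (-1) * h1
    have p1 : 0 < ω'' + s * (κ - α) := by
      have : 0 < (ω'' + s * (κ - α)) * (α + β) := by rw [fs]; positivity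
      exact (pos_iff_pos_of_mul_pos this).mpr hab
    have p2 : 0 ≤ ω'' + s' * (κ - α) := by
      have : 0 ≤ (ω'' + s' * (κ - α)) * (κ + β) := by rw [fs']; positivity
      exact nonneg_of_mul_nonneg_left this hkb
    have e : (s' - s) * (ω'' + τ * (κ - α)) =
        (s' - τ) * (ω'' + s * (κ - α)) + (τ - s) * (ω'' + s' * (κ - α)) := by ring
    have : 0 < (s' - s) * (ω'' + τ * (κ - α)) := by
      rw [e]
      have a1 : 0 < (s' - τ) * (ω'' + s * (κ - α)) := mul_pos (by linarith) p1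
      have a2 : 0 ≤ (τ - s) * (ω'' + s' * (κ - α)) := mul_nonneg (by linarith) p2
      linarith
    exact (pos_iff_pos_of_mul_pos this).mp (by linarith)

lemma exitR (α β κ ω ω' ω'' Δ s s' : ℝ) (hα : 0 < α) (hβ : 0 < β) (hκ : κ ≤ 0) (hω : 0 < ω)
    (hΔ : 0 < Δ) (E1 : Δ = ω' - ω + ω'') (E2 : α * ω' = β * ω'' + κ * ω)
    (hs : s * (α + β) = ω) (hs' : s' * (α - κ) = ω'') :
    0 < ω'' ∧ 0 < s ∧ s < s' ∧ (s' - s) * ((α + β) * (α - κ)) = α * Δ ∧
    (∀ τ, s < τ → τ < s' →
      0 < -ω + τ * (α + β) ∧ 0 < ω' - τ * (κ + β) ∧ 0 < ω'' + τ * (κ - α)) := by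
  have hab : 0 < α + β := by linarith
  have hkb : 0 < α - κ := by linarith
  have h1 : ω'' * (α + β) = α * (Δ + ω) - κ * ω := by
    have : ω' = Δ + ω - ω'' := by linarith
    rw [this] at E2
    linear_combination (-1) * E2
  have hω' : 0 < ω'' := by
    have : 0 < ω'' * (α + β) := by
      rw [h1]
      have : 0 ≤ -κ * ω := mul_nonneg (by linarith) hω.le
      have h3 : 0 < α * (Δ + ω) := by positivity
      linarith
    exact (pos_iff_pos_of_mul_pos this).mpr hab
  have hs0 : 0 < s := by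
    have : 0 < s * (α + β) := by rw [hs]; exact hω
    exact (pos_iff_pos_of_mul_pos this).mpr hab
  have hdiff : (s' - s) * ((α + β) * (α - κ)) = α * Δ := by
    have : (s' - s) * ((α + β) * (α - κ)) = (s' * (α - κ)) * (α + β) - (s * (α + β)) * (α - κ) := by ring
    rw [this, hs, hs', h1]; ring
  have hlt : s < s' := by
    have : 0 < (s' - s) * ((α + β) * (α - κ)) := by rw [hdiff]; positivity
    have h2 : 0 < s' - s := (pos_iff_pos_of_mul_pos this).mpr (by positivity)
    linarith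
  refine ⟨hω', hs0, hlt, hdiff, fun τ h1τ h2τ => ⟨?_, ?_, ?_⟩⟩
  · rw [← hs]; nlinarith
  · have fs : (ω' - s * (κ + β)) * (α + β) = β * Δ := by
      have e : (ω' - s * (κ + β)) * (α + β) = ω' * (α + β) - (s * (α + β)) * (κ + β) := by ring
      rw [e, hs]
      have : ω' = Δ + ω - ω'' := by linarith
      rw [this]; linear_combination (-1) * h1
    have fs' : (ω' - s' * (κ + β)) * (α - κ) = -κ * Δ := by
      have e : (ω' - s' * (κ + β)) * (α - κ) = ω' * (α - κ) - (s' * (α - κ)) * (κ + β) := by ring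
      rw [e, hs']
      have : ω' = Δ + ω - ω'' := by linarith
      rw [this]; linear_combination (-1) * h1
    have p1 : 0 < ω' - s * (κ + β) := by
      have : 0 < (ω' - s * (κ + β)) * (α + β) := by rw [fs]; positivity
      exact (pos_iff_pos_of_mul_pos this).mpr hab
    have p2 : 0 ≤ ω' - s' * (κ + β) := by
      have : 0 ≤ (ω' - s' * (κ + β)) * (α - κ) := by
        rw [fs']
        have : 0 ≤ -κ := by linarith
        positivity
      exact nonneg_of_mul_nonneg_left this hkb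
    have e : (s' - s) * (ω' - τ * (κ + β)) =
        (s' - τ) * (ω' - s * (κ + β)) + (τ - s) * (ω' - s' * (κ + β)) := by ring
    have : 0 < (s' - s) * (ω' - τ * (κ + β)) := by
      rw [e]
      have a1 : 0 < (s' - τ) * (ω' - s * (κ + β)) := mul_pos (by linarith) p1
      have a2 : 0 ≤ (τ - s) * (ω' - s' * (κ + β)) := mul_nonneg (by linarith) p2
      linarith
    exact (pos_iff_pos_of_mul_pos this).mp (by linarith)
  · rw [← hs']; nlinarith

/-- state of the unfolding of a fan of rays issued from `x` with direction angles in `[a₁, a₂]`: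
the fan enters the triangle `a b c` through the side `a b` (`a` on the left, `b` on the right) -/
structure FanState (F₀ : ℂ → ℂ → ℝ) (S : Set ℝ) (x : ℂ) (a₁ a₂ Δ D : ℝ) (a b c : ℂ)
    (F : ℂ → ℂ → ℝ) : Prop where
  good : Good a b c F S
  area : orient a b c = Δ
  dab : ‖a - b‖ ≤ D
  dbc : ‖b - c‖ ≤ D
  dca : ‖c - a‖ ≤ D
  left : ∀ t ∈ Set.Icc a₁ a₂, 0 < cross (ev t) (a - x)
  right : ∀ t ∈ Set.Icc a₁ a₂, cross (ev t) (b - x) < 0
  ahead : 0 < cross (b - x) (a - x)
  inv : ∀ t ∈ Set.Icc a₁ a₂, ∀ τ : ℝ, 0 < τ → InTri a b c (x + τ * ev t) →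
    F (x + τ * ev t) (ev t) = F₀ x (ev t)

lemma orient_refl_tri (a b c : ℂ) (hab : b - a ≠ 0) :
    orient b a (refl a (b - a) c) = orient a b c := by
  have := orient_refl a (b - a) b a c hab
  rw [refl_tip a b hab, refl_base] at this
  rw [this, orient_swap]; ring

lemma norm_refl_sub (p w y z : ℂ) (hw : w ≠ 0) : ‖refl p w y - refl p w z‖ = ‖y - z‖ := by
  rw [refl_sub, norm_mirror w _ hw]

lemma ne_of_orient_pos {a b c : ℂ} (h : 0 < orient a b c) : b - a ≠ 0 ∧ c - b ≠ 0 ∧ a - c ≠ 0 := by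
  refine ⟨?_, ?_, ?_⟩
  · intro h0
    simp [orient, h0, cross] at h
  · intro h0
    have : c = b := by linear_combination h0
    rw [this] at h
    simp [orient, cross] at h
    linarith
  · intro h0
    have : a = c := by linear_combination h0
    rw [this] at h
    simp [orient, cross] at h

/-- relations between the scalar data of a ray -/
lemma ray_relations (a b c x e : ℂ) :
    orient a b c = cross (b - x) (c - x) - cross (b - x) (a - x) + cross (c - x) (a - x) ∧
    cross e (a - x) * cross (b - x) (c - x) =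
      (-cross e (b - x)) * cross (c - x) (a - x) + cross e (c - x) * cross (b - x) (a - x) := by
  constructor
  · simp [orient, cross]; ring
  · simp [cross]; ring

lemma ray_passL {a b c x e : ℂ} {F : ℂ → ℂ → ℝ} {S : Set ℝ} (hgood : Good a b c F S)
    (hΔ : 0 < orient a b c) (he : ‖e‖ = 1) (hα : 0 < cross e (a - x)) (hβ : cross e (b - x) < 0)
    (hκ : 0 < cross e (c - x)) (hω : 0 < cross (b - x) (a - x)) (τ : ℝ)
    (hy' : InTri c b (refl b (c - b) a) (x + τ * e)) :
    ∃ τ₀ : ℝ, 0 < τ₀ ∧ InTri a b c (x + τ₀ * e) ∧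
      F (x + τ₀ * e) e = reflF b (c - b) F (x + τ * e) e := by
  obtain ⟨-, hcb, -⟩ := ne_of_orient_pos hΔ
  obtain ⟨E1, E2⟩ := ray_relations a b c x e
  set α := cross e (a - x) with hαd
  set β := -cross e (b - x) with hβd
  set κ := cross e (c - x) with hκd
  set ω := cross (b - x) (a - x) with hωd
  set ω' := cross (b - x) (c - x) with hω'd
  set ω'' := cross (c - x) (a - x) with hω''d
  set Δ := orient a b c with hΔd
  have hβ0 : 0 < β := by rw [hβd]; linarith
  have hab : 0 < α + β := by linarith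
  have hkb : 0 < κ + β := by linarith
  set s := ω / (α + β) with hs
  set s' := ω' / (κ + β) with hs'
  have hs1 : s * (α + β) = ω := by rw [hs]; field_simp
  have hs2 : s' * (κ + β) = ω' := by rw [hs']; field_simp
  obtain ⟨hω', hs0, hlt, -, hin⟩ := exitL α β κ ω ω' ω'' Δ s s' hα hβ0 hκ.le hω hΔ E1 E2 hs1 hs2
  set τ₀ := (s + s') / 2 with hτ₀
  have h1 : s < τ₀ := by rw [hτ₀]; linarith
  have h2 : τ₀ < s' := by rw [hτ₀]; linarith
  have hτ₀pos : 0 < τ₀ := by linarith
  obtain ⟨i1, i2, i3⟩ := hin τ₀ h1 h2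
  have hy : InTri a b c (x + τ₀ * e) := by
    refine ⟨?_, ?_, ?_⟩
    · rw [orient_ray]
      have : cross (a - x) (b - x) = -ω := by rw [hωd, cross_comm]
      rw [this]
      have : cross e (a - x) - cross e (b - x) = α + β := by rw [hαd, hβd]; ring
      rw [this]; exact i1
    · rw [orient_ray]
      have : cross e (b - x) - cross e (c - x) = -(κ + β) := by rw [hκd, hβd]; ring
      rw [this]; linarith
    · rw [orient_ray]
      have : cross e (c - x) - cross e (a - x) = κ - α := by rw [hκd, hαd]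
      rw [this]; exact i3
  -- τ > s'
  have hτ : s' < τ := by
    have := hy'.1
    rw [orient_swap, orient_ray] at this
    have e1 : cross e (b - x) - cross e (c - x) = -(κ + β) := by rw [hκd, hβd]; ring
    rw [e1, ← hω'd, ← hs2] at this
    nlinarith
  set ν := β / (κ + β) with hν
  have hν0 : 0 < ν := by rw [hν]; positivity
  have hν1 : ν < 1 := by rw [hν, div_lt_one hkb]; linarith
  have hvec : ((ω' : ℝ) : ℂ) * e = ((κ : ℝ) : ℂ) * (b - x) + ((β : ℝ) : ℂ) * (c - x) := by
    have := cross_vec e (b - x) (c - x)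
    have e1 : cross (c - x) e = -κ := by rw [hκd, cross_comm]
    have e2 : cross e (b - x) = -β := by rw [hβd]; ring
    rw [e1, e2, ← hω'd] at this
    push_cast at this
    linear_combination this
  have hkbC : ((κ : ℂ) + (β : ℂ)) ≠ 0 := by exact_mod_cast hkb.ne'
  have hpt0 : x + (s' : ℂ) * e = b + (ν : ℂ) * (c - b) := by
    rw [hs', hν]
    push_cast
    field_simp
    linear_combination hvec
  have hpt : x + (τ₀ : ℂ) * e + ((s' - τ₀ : ℝ) : ℂ) * e = b + (ν : ℂ) * (c - b) := by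
    rw [← hpt0]; push_cast; ring
  have himg : refl b (c - b) (x + τ * e) =
      x + (τ₀ : ℂ) * e + ((s' - τ₀ : ℝ) : ℂ) * e + ((τ - s' : ℝ) : ℂ) * mirror (c - b) e := by
    have e1 : x + (τ : ℂ) * e = (b + (ν : ℂ) * (c - b)) + ((τ - s' : ℝ) : ℂ) * e := by
      rw [← hpt0]; push_cast; ring
    rw [e1, refl_add_smul, refl_add_smul, refl_base, mirror_self _ hcb, hpt]
  have hbc : b ≠ c := by
    intro h; apply hcb; rw [h]; ring
  have hin' : InTri a b c (refl b (c - b) (x + τ * e)) :=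
    inTri_cyc.mp ((inTri_refl b c a _ hcb).mp hy')
  refine ⟨τ₀, hτ₀pos, hy, ?_⟩
  simp only [reflF]
  rw [himg]
  apply hgood.bounce b c (by tauto) (by tauto) hbc _ _ _ _ ν he (by linarith) (by linarith) hν0 hν1 hy hpt
  rw [← himg]; exact hin'

lemma ray_passR {a b c x e : ℂ} {F : ℂ → ℂ → ℝ} {S : Set ℝ} (hgood : Good a b c F S)
    (hΔ : 0 < orient a b c) (he : ‖e‖ = 1) (hα : 0 < cross e (a - x)) (hβ : cross e (b - x) < 0)
    (hκ : cross e (c - x) < 0) (hω : 0 < cross (b - x) (a - x)) (τ : ℝ)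
    (hy' : InTri a c (refl c (a - c) b) (x + τ * e)) :
    ∃ τ₀ : ℝ, 0 < τ₀ ∧ InTri a b c (x + τ₀ * e) ∧
      F (x + τ₀ * e) e = reflF c (a - c) F (x + τ * e) e := by
  obtain ⟨-, -, hac⟩ := ne_of_orient_pos hΔ
  obtain ⟨E1, E2⟩ := ray_relations a b c x e
  set α := cross e (a - x) with hαd
  set β := -cross e (b - x) with hβd
  set κ := cross e (c - x) with hκd
  set ω := cross (b - x) (a - x) with hωd
  set ω' := cross (b - x) (c - x) with hω'd
  set ω'' := cross (c - x) (a - x) with hω''d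
  set Δ := orient a b c with hΔd
  have hβ0 : 0 < β := by rw [hβd]; linarith
  have hab : 0 < α + β := by linarith
  have hkb : 0 < α - κ := by linarith
  set s := ω / (α + β) with hs
  set s' := ω'' / (α - κ) with hs'
  have hs1 : s * (α + β) = ω := by rw [hs]; field_simp
  have hs2 : s' * (α - κ) = ω'' := by rw [hs']; field_simp
  obtain ⟨hω', hs0, hlt, -, hin⟩ := exitR α β κ ω ω' ω'' Δ s s' hα hβ0 hκ.le hω hΔ E1 E2 hs1 hs2
  set τ₀ := (s + s') / 2 with hτ₀
  have h1 : s < τ₀ := by rw [hτ₀]; linarith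
  have h2 : τ₀ < s' := by rw [hτ₀]; linarith
  have hτ₀pos : 0 < τ₀ := by linarith
  obtain ⟨i1, i2, i3⟩ := hin τ₀ h1 h2
  have hy : InTri a b c (x + τ₀ * e) := by
    refine ⟨?_, ?_, ?_⟩
    · rw [orient_ray]
      have : cross (a - x) (b - x) = -ω := by rw [hωd, cross_comm]
      rw [this]
      have : cross e (a - x) - cross e (b - x) = α + β := by rw [hαd, hβd]; ring
      rw [this]; exact i1
    · rw [orient_ray]
      have : cross e (b - x) - cross e (c - x) = -(κ + β) := by rw [hκd, hβd]; ring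
      rw [this]; linarith
    · rw [orient_ray]
      have : cross e (c - x) - cross e (a - x) = κ - α := by rw [hκd, hαd]
      rw [this]; exact i3
  -- τ > s'
  have hτ : s' < τ := by
    have := hy'.1
    rw [orient_swap, orient_ray] at this
    have e1 : cross e (c - x) - cross e (a - x) = -(α - κ) := by rw [hκd, hαd]; ring
    rw [e1, ← hω''d, ← hs2] at this
    nlinarith
  set ν := -κ / (α - κ) with hν
  have hν0 : 0 < ν := by
    rw [hν]; apply div_pos (by linarith) hkb
  have hν1 : ν < 1 := by rw [hν, div_lt_one hkb]; linarith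
  have hvec : ((ω'' : ℝ) : ℂ) * e = ((α : ℝ) : ℂ) * (c - x) - ((κ : ℝ) : ℂ) * (a - x) := by
    have := cross_vec e (c - x) (a - x)
    have e1 : cross (a - x) e = -α := by rw [hαd, cross_comm]
    rw [e1, ← hω''d, ← hκd] at this
    push_cast at this
    linear_combination this
  have hkbC : ((α : ℂ) - (κ : ℂ)) ≠ 0 := by exact_mod_cast hkb.ne'
  have hpt0 : x + (s' : ℂ) * e = c + (ν : ℂ) * (a - c) := by
    rw [hs', hν]
    push_cast
    field_simp
    linear_combination hvec
  have hpt : x + (τ₀ : ℂ) * e + ((s' - τ₀ : ℝ) : ℂ) * e = c + (ν : ℂ) * (a - c) := by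
    rw [← hpt0]; push_cast; ring
  have himg : refl c (a - c) (x + τ * e) =
      x + (τ₀ : ℂ) * e + ((s' - τ₀ : ℝ) : ℂ) * e + ((τ - s' : ℝ) : ℂ) * mirror (a - c) e := by
    have e1 : x + (τ : ℂ) * e = (c + (ν : ℂ) * (a - c)) + ((τ - s' : ℝ) : ℂ) * e := by
      rw [← hpt0]; push_cast; ring
    rw [e1, refl_add_smul, refl_add_smul, refl_base, mirror_self _ hac, hpt]
  have hca : c ≠ a := by
    intro h; apply hac; rw [h]; ring
  have hin' : InTri a b c (refl c (a - c) (x + τ * e)) :=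
    inTri_cyc.mp (inTri_cyc.mp ((inTri_refl c a b _ hac).mp hy'))
  refine ⟨τ₀, hτ₀pos, hy, ?_⟩
  simp only [reflF]
  rw [himg]
  apply hgood.bounce c a (by tauto) (by tauto) hca _ _ _ _ ν he (by linarith) (by linarith) hν0 hν1 hy hpt
  rw [← himg]; exact hin'

lemma ray_hit {a b c x e : ℂ} {F : ℂ → ℂ → ℝ} {S : Set ℝ} (hgood : Good a b c F S)
    (hΔ : 0 < orient a b c) (he : ‖e‖ = 1) (hα : 0 < cross e (a - x)) (hβ : cross e (b - x) < 0)
    (hκ : cross e (c - x) = 0) (hω : 0 < cross (b - x) (a - x)) :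
    ∃ τ₀ : ℝ, 0 < τ₀ ∧ InTri a b c (x + τ₀ * e) ∧ F (x + τ₀ * e) e ∈ S := by
  obtain ⟨E1, E2⟩ := ray_relations a b c x e
  set α := cross e (a - x) with hαd
  set β := -cross e (b - x) with hβd
  set κ := cross e (c - x) with hκd
  set ω := cross (b - x) (a - x) with hωd
  set ω' := cross (b - x) (c - x) with hω'd
  set ω'' := cross (c - x) (a - x) with hω''d
  set Δ := orient a b c with hΔd
  have hβ0 : 0 < β := by rw [hβd]; linarith
  have hab : 0 < α + β := by linarith
  have hkb : 0 < κ + β := by linarith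
  set s := ω / (α + β) with hs
  set s' := ω' / (κ + β) with hs'
  have hs1 : s * (α + β) = ω := by rw [hs]; field_simp
  have hs2 : s' * (κ + β) = ω' := by rw [hs']; field_simp
  obtain ⟨hω', hs0, hlt, -, hin⟩ := exitL α β κ ω ω' ω'' Δ s s' hα hβ0 hκ.ge hω hΔ E1 E2 hs1 hs2
  set τ₀ := (s + s') / 2 with hτ₀
  have h1 : s < τ₀ := by rw [hτ₀]; linarith
  have h2 : τ₀ < s' := by rw [hτ₀]; linarith
  have hτ₀pos : 0 < τ₀ := by linarith
  obtain ⟨i1, i2, i3⟩ := hin τ₀ h1 h2
  have hy : InTri a b c (x + τ₀ * e) := by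
    refine ⟨?_, ?_, ?_⟩
    · rw [orient_ray]
      have : cross (a - x) (b - x) = -ω := by rw [hωd, cross_comm]
      rw [this]
      have : cross e (a - x) - cross e (b - x) = α + β := by rw [hαd, hβd]; ring
      rw [this]; exact i1
    · rw [orient_ray]
      have : cross e (b - x) - cross e (c - x) = -(κ + β) := by rw [hκd, hβd]; ring
      rw [this]; linarith
    · rw [orient_ray]
      have : cross e (c - x) - cross e (a - x) = κ - α := by rw [hκd, hαd]
      rw [this]; exact i3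
  have hvec : ((ω' : ℝ) : ℂ) * e = ((κ : ℝ) : ℂ) * (b - x) + ((β : ℝ) : ℂ) * (c - x) := by
    have := cross_vec e (b - x) (c - x)
    have e1 : cross (c - x) e = -κ := by rw [hκd, cross_comm]
    have e2 : cross e (b - x) = -β := by rw [hβd]; ring
    rw [e1, e2, ← hω'd] at this
    push_cast at this
    linear_combination this
  have hkbC : ((κ : ℂ) + (β : ℂ)) ≠ 0 := by exact_mod_cast hkb.ne'
  have hpt0 : c = x + (s' : ℂ) * e := by
    rw [hs']
    push_cast
    field_simp
    rw [hκ] at hvec ⊢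
    push_cast at hvec ⊢
    linear_combination (-1 : ℂ) * hvec
  refine ⟨τ₀, hτ₀pos, hy, ?_⟩
  apply hgood.sing c (by tauto) _ _ (s' - τ₀) he (by linarith) hy
  rw [hpt0]; push_cast; ring

lemma fan_aheadL {a b c x e : ℂ} (hΔ : 0 < orient a b c) (hα : 0 < cross e (a - x))
    (hβ : cross e (b - x) < 0) (hκ : 0 ≤ cross e (c - x)) (hω : 0 < cross (b - x) (a - x)) :
    0 < cross (b - x) (c - x) := by
  obtain ⟨E1, E2⟩ := ray_relations a b c x e
  have hab : 0 < cross e (a - x) + -cross e (b - x) := by linarith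
  have hkb : 0 < cross e (c - x) + -cross e (b - x) := by linarith
  exact (exitL _ _ _ _ _ _ _ (cross (b - x) (a - x) / (cross e (a - x) + -cross e (b - x)))
    (cross (b - x) (c - x) / (cross e (c - x) + -cross e (b - x))) hα (by linarith) hκ hω hΔ E1 E2
    (by field_simp) (by field_simp)).1

lemma fan_aheadR {a b c x e : ℂ} (hΔ : 0 < orient a b c) (hα : 0 < cross e (a - x))
    (hβ : cross e (b - x) < 0) (hκ : cross e (c - x) ≤ 0) (hω : 0 < cross (b - x) (a - x)) :
    0 < cross (c - x) (a - x) := by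
  obtain ⟨E1, E2⟩ := ray_relations a b c x e
  have hab : 0 < cross e (a - x) + -cross e (b - x) := by linarith
  have hkb : 0 < cross e (a - x) - cross e (c - x) := by linarith
  exact (exitR _ _ _ _ _ _ _ (cross (b - x) (a - x) / (cross e (a - x) + -cross e (b - x)))
    (cross (c - x) (a - x) / (cross e (a - x) - cross e (c - x))) hα (by linarith) hκ hω hΔ E1 E2
    (by field_simp) (by field_simp)).1

lemma fan_stepL {F₀ : ℂ → ℂ → ℝ} {S : Set ℝ} {x : ℂ} {a₁ a₂ Δ D : ℝ} {a b c : ℂ} {F : ℂ → ℂ → ℝ}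
    (st : FanState F₀ S x a₁ a₂ Δ D a b c F) (hΔ : 0 < Δ) (h12 : a₁ ≤ a₂)
    (hκ : ∀ t ∈ Set.Icc a₁ a₂, 0 < cross (ev t) (c - x)) :
    FanState F₀ S x a₁ a₂ Δ D c b (refl b (c - b) a) (reflF b (c - b) F) := by
  have hΔ' : 0 < orient a b c := by rw [st.area]; exact hΔ
  obtain ⟨-, hcb, -⟩ := ne_of_orient_pos hΔ'
  have hm : a₁ ∈ Set.Icc a₁ a₂ := ⟨le_refl _, h12⟩
  constructor
  · exact st.good.cyc.refl hcb
  · rw [orient_refl_tri b c a hcb, orient_cyc, st.area]
  · rw [norm_sub_rev]; exact st.dbc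
  · have := norm_refl_sub b (c - b) b a hcb
    rw [refl_base] at this
    rw [this, norm_sub_rev]; exact st.dab
  · have := norm_refl_sub b (c - b) a c hcb
    rw [refl_tip b c hcb] at this
    rw [this, norm_sub_rev]; exact st.dca
  · exact hκ
  · exact st.right
  · exact fan_aheadL hΔ' (st.left a₁ hm) (st.right a₁ hm) (hκ a₁ hm).le st.ahead
  · intro t ht τ _ hy'
    obtain ⟨τ₀, hτ₀, hy, hF⟩ := ray_passL st.good hΔ' (norm_ev t) (st.left t ht) (st.right t ht)
      (hκ t ht) st.ahead τ hy'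
    rw [← hF]
    exact st.inv t ht τ₀ hτ₀ hy

lemma fan_stepR {F₀ : ℂ → ℂ → ℝ} {S : Set ℝ} {x : ℂ} {a₁ a₂ Δ D : ℝ} {a b c : ℂ} {F : ℂ → ℂ → ℝ}
    (st : FanState F₀ S x a₁ a₂ Δ D a b c F) (hΔ : 0 < Δ) (h12 : a₁ ≤ a₂)
    (hκ : ∀ t ∈ Set.Icc a₁ a₂, cross (ev t) (c - x) < 0) :
    FanState F₀ S x a₁ a₂ Δ D a c (refl c (a - c) b) (reflF c (a - c) F) := by
  have hΔ' : 0 < orient a b c := by rw [st.area]; exact hΔ
  obtain ⟨-, -, hac⟩ := ne_of_orient_pos hΔ'
  have hm : a₁ ∈ Set.Icc a₁ a₂ := ⟨le_refl _, h12⟩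
  constructor
  · exact st.good.cyc.cyc.refl hac
  · rw [orient_refl_tri c a b hac, orient_cyc, orient_cyc, st.area]
  · rw [norm_sub_rev]; exact st.dca
  · have := norm_refl_sub c (a - c) c b hac
    rw [refl_base] at this
    rw [this, norm_sub_rev]; exact st.dbc
  · have := norm_refl_sub c (a - c) b a hac
    rw [refl_tip c a hac] at this
    rw [this, norm_sub_rev]; exact st.dab
  · exact st.left
  · exact hκ
  · exact fan_aheadR hΔ' (st.left a₁ hm) (st.right a₁ hm) (hκ a₁ hm).le st.ahead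
  · intro t ht τ _ hy'
    obtain ⟨τ₀, hτ₀, hy, hF⟩ := ray_passR st.good hΔ' (norm_ev t) (st.left t ht) (st.right t ht)
      (hκ t ht) st.ahead τ hy'
    rw [← hF]
    exact st.inv t ht τ₀ hτ₀ hy

lemma fan_hit {F₀ : ℂ → ℂ → ℝ} {S : Set ℝ} {x : ℂ} {a₁ a₂ Δ D : ℝ} {a b c : ℂ} {F : ℂ → ℂ → ℝ}
    (st : FanState F₀ S x a₁ a₂ Δ D a b c F) (hΔ : 0 < Δ) (t : ℝ) (ht : t ∈ Set.Icc a₁ a₂)
    (hκ : cross (ev t) (c - x) = 0) : F₀ x (ev t) ∈ S := by
  have hΔ' : 0 < orient a b c := by rw [st.area]; exact hΔ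
  obtain ⟨τ₀, hτ₀, hy, hF⟩ := ray_hit st.good hΔ' (norm_ev t) (st.left t ht) (st.right t ht) hκ st.ahead
  rw [← st.inv t ht τ₀ hτ₀ hy]
  exact hF

lemma sign_trichotomy (h : ℝ → ℝ) (hc : Continuous h) (a₁ a₂ : ℝ) (h12 : a₁ ≤ a₂) :
    (∃ t ∈ Set.Icc a₁ a₂, h t = 0) ∨ (∀ t ∈ Set.Icc a₁ a₂, 0 < h t) ∨
      (∀ t ∈ Set.Icc a₁ a₂, h t < 0) := by
  by_cases hz : ∃ t ∈ Set.Icc a₁ a₂, h t = 0
  · exact Or.inl hz
  right
  push Not at hz
  have hm : a₁ ∈ Set.Icc a₁ a₂ := ⟨le_refl _, h12⟩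
  rcases lt_trichotomy (h a₁) 0 with h0 | h0 | h0
  · right
    intro t ht
    by_contra hcon
    have hpos : 0 ≤ h t := not_lt.mp hcon
    have := intermediate_value_Icc ht.1 hc.continuousOn (show (0 : ℝ) ∈ Set.Icc (h a₁) (h t) from ⟨h0.le, hpos⟩)
    obtain ⟨u, hu, hu0⟩ := this
    exact hz u ⟨hu.1, hu.2.trans ht.2⟩ hu0
  · exact absurd h0 (hz a₁ hm)
  · left
    intro t ht
    by_contra hcon
    have hneg : h t ≤ 0 := not_lt.mp hcon
    have := intermediate_value_Icc' ht.1 hc.continuousOn (show (0 : ℝ) ∈ Set.Icc (h t) (h a₁) from ⟨hneg, h0.le⟩)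
    obtain ⟨u, hu, hu0⟩ := this
    exact hz u ⟨hu.1, hu.2.trans ht.2⟩ hu0

/-- time at which the ray from `x` in direction `e` crosses the line `a b` -/
noncomputable def cr (x e a b : ℂ) : ℝ := cross (b - x) (a - x) / cross e (a - b)

lemma cross_sub_base (e a b x : ℂ) : cross e (a - b) = cross e (a - x) - cross e (b - x) := by
  simp [cross]; ring

lemma cross_le_norm (e w : ℂ) (he : ‖e‖ = 1) : cross e w ≤ ‖w‖ := by
  have := abs_cross_le e w
  rw [he, one_mul] at this
  exact (le_abs_self _).trans this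

lemma growth_real (s d P K ω χ Δ D m n : ℝ) (hP : 0 < P) (hK : 0 < K) (hKD : K ≤ D)
    (hsP : s * P = ω) (hd : d * (P * K) = m * Δ) (hχ : ω * χ ≤ n * m) (hn : n ≤ D) (hm : 0 ≤ m)
    (hΔ : 0 < Δ) : s * χ * Δ ≤ d * D ^ 2 := by
  have hD : 0 < D := lt_of_lt_of_le hK hKD
  have hPK : 0 < P * K := by positivity
  apply le_of_mul_le_mul_right _ hPK
  have e1 : s * χ * Δ * (P * K) = (ω * χ) * (Δ * K) := by rw [← hsP]; ring
  have e2 : d * D ^ 2 * (P * K) = D ^ 2 * (m * Δ) := by rw [← hd]; ring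
  rw [e1, e2]
  calc ω * χ * (Δ * K) ≤ (n * m) * (Δ * K) := mul_le_mul_of_nonneg_right hχ (by positivity)
    _ ≤ (D * m) * (Δ * D) := by
        apply mul_le_mul (mul_le_mul_of_nonneg_right hn hm) (mul_le_mul_of_nonneg_left hKD hΔ.le)
          (by positivity) (by positivity)
    _ = D ^ 2 * (m * Δ) := by ring

/-- monotonicity and growth of the crossing times, left case -/
lemma cr_stepL {a b c x e : ℂ} (hΔ : 0 < orient a b c) (hα : 0 < cross e (a - x))
    (hβ : cross e (b - x) < 0) (hκ : 0 < cross e (c - x)) (hω : 0 < cross (b - x) (a - x)) :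
    0 < cr x e a b ∧ cr x e a b < cr x e c b ∧
    (cr x e c b - cr x e a b) * ((cross e (a - x) + -cross e (b - x)) *
      (cross e (c - x) + -cross e (b - x))) = (-cross e (b - x)) * orient a b c := by
  obtain ⟨E1, E2⟩ := ray_relations a b c x e
  have hab : 0 < cross e (a - x) + -cross e (b - x) := by linarith
  have hkb : 0 < cross e (c - x) + -cross e (b - x) := by linarith
  have e1 : cr x e a b = cross (b - x) (a - x) / (cross e (a - x) + -cross e (b - x)) := by
    unfold cr; rw [cross_sub_base e a b x]; ring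
  have e2 : cr x e c b = cross (b - x) (c - x) / (cross e (c - x) + -cross e (b - x)) := by
    unfold cr; rw [cross_sub_base e c b x]; ring
  rw [e1, e2]
  obtain ⟨-, h2, h3, h4, -⟩ := exitL _ _ _ _ _ _ _
    (cross (b - x) (a - x) / (cross e (a - x) + -cross e (b - x)))
    (cross (b - x) (c - x) / (cross e (c - x) + -cross e (b - x))) hα (by linarith) hκ.le hω hΔ E1 E2
    (by field_simp) (by field_simp)
  exact ⟨h2, h3, h4⟩

lemma cr_stepR {a b c x e : ℂ} (hΔ : 0 < orient a b c) (hα : 0 < cross e (a - x))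
    (hβ : cross e (b - x) < 0) (hκ : cross e (c - x) < 0) (hω : 0 < cross (b - x) (a - x)) :
    0 < cr x e a b ∧ cr x e a b < cr x e a c ∧
    (cr x e a c - cr x e a b) * ((cross e (a - x) + -cross e (b - x)) *
      (cross e (a - x) - cross e (c - x))) = cross e (a - x) * orient a b c := by
  obtain ⟨E1, E2⟩ := ray_relations a b c x e
  have hab : 0 < cross e (a - x) + -cross e (b - x) := by linarith
  have hkb : 0 < cross e (a - x) - cross e (c - x) := by linarith
  have e1 : cr x e a b = cross (b - x) (a - x) / (cross e (a - x) + -cross e (b - x)) := by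
    unfold cr; rw [cross_sub_base e a b x]; ring
  have e2 : cr x e a c = cross (c - x) (a - x) / (cross e (a - x) - cross e (c - x)) := by
    unfold cr; rw [cross_sub_base e a c x]
  rw [e1, e2]
  obtain ⟨-, h2, h3, h4, -⟩ := exitR _ _ _ _ _ _ _
    (cross (b - x) (a - x) / (cross e (a - x) + -cross e (b - x)))
    (cross (c - x) (a - x) / (cross e (a - x) - cross e (c - x))) hα (by linarith) hκ.le hω hΔ E1 E2
    (by field_simp) (by field_simp)
  exact ⟨h2, h3, h4⟩

lemma cr_mul {a b x e : ℂ} (hα : 0 < cross e (a - x)) (hβ : cross e (b - x) < 0) :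
    cr x e a b * (cross e (a - x) + -cross e (b - x)) = cross (b - x) (a - x) := by
  have hab : 0 < cross e (a - x) + -cross e (b - x) := by linarith
  unfold cr; rw [cross_sub_base e a b x]
  have : cross e (a - x) - cross e (b - x) = cross e (a - x) + -cross e (b - x) := by ring
  rw [this]; field_simp

/-- `ω χ = α₁ β₂ - α₂ β₁` -/
lemma omega_chi (e₁ e₂ a b x : ℂ) :
    cross (b - x) (a - x) * cross e₁ e₂ =
      cross e₁ (a - x) * (-cross e₂ (b - x)) - cross e₂ (a - x) * (-cross e₁ (b - x)) := by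
  simp [cross]; ring

lemma fan_D_pos {F₀ : ℂ → ℂ → ℝ} {S : Set ℝ} {x : ℂ} {a₁ a₂ Δ D : ℝ} {a b c : ℂ} {F : ℂ → ℂ → ℝ}
    (st : FanState F₀ S x a₁ a₂ Δ D a b c F) (hΔ : 0 < Δ) : 0 < D := by
  have hΔ' : 0 < orient a b c := by rw [st.area]; exact hΔ
  obtain ⟨hab, -, -⟩ := ne_of_orient_pos hΔ'
  have : 0 < ‖a - b‖ := by
    rw [norm_pos_iff]; intro h; apply hab
    have : b - a = -(a - b) := by ring
    rw [this, h]; simp
  exact lt_of_lt_of_le this st.dab

lemma fan_step {F₀ : ℂ → ℂ → ℝ} {S : Set ℝ} {x : ℂ} {a₁ a₂ Δ D : ℝ} {a b c : ℂ} {F : ℂ → ℂ → ℝ}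
    (st : FanState F₀ S x a₁ a₂ Δ D a b c F) (hΔ : 0 < Δ) (h12 : a₁ ≤ a₂)
    (hχ : 0 < cross (ev a₁) (ev a₂)) :
    (∃ t ∈ Set.Icc a₁ a₂, F₀ x (ev t) ∈ S) ∨
    ∃ a' b' c' F', FanState F₀ S x a₁ a₂ Δ D a' b' c' F' ∧
      cr x (ev a₁) a b ≤ cr x (ev a₁) a' b' ∧ cr x (ev a₂) a b ≤ cr x (ev a₂) a' b' ∧
      cr x (ev a₁) a b + cr x (ev a₂) a b +
        min (cr x (ev a₁) a b) (cr x (ev a₂) a b) * cross (ev a₁) (ev a₂) * Δ / D ^ 2 ≤
        cr x (ev a₁) a' b' + cr x (ev a₂) a' b' := by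
  have hΔ' : 0 < orient a b c := by rw [st.area]; exact hΔ
  have hD : 0 < D := fan_D_pos st hΔ
  have hm1 : a₁ ∈ Set.Icc a₁ a₂ := ⟨le_refl _, h12⟩
  have hm2 : a₂ ∈ Set.Icc a₁ a₂ := ⟨h12, le_refl _⟩
  set e₁ := ev a₁ with he₁
  set e₂ := ev a₂ with he₂
  have hα₁ := st.left a₁ hm1
  have hα₂ := st.left a₂ hm2
  have hβ₁ := st.right a₁ hm1
  have hβ₂ := st.right a₂ hm2
  rw [← he₁] at hα₁ hβ₁
  rw [← he₂] at hα₂ hβ₂
  have hoc := omega_chi e₁ e₂ a b x
  have hn1 : ‖e₁‖ = 1 := norm_ev a₁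
  have hn2 : ‖e₂‖ = 1 := norm_ev a₂
  have hP1 : cross e₁ (a - x) + -cross e₁ (b - x) ≤ D := by
    have := cross_le_norm e₁ (a - b) hn1
    rw [cross_sub_base e₁ a b x] at this
    linarith [st.dab]
  have hP2 : cross e₂ (a - x) + -cross e₂ (b - x) ≤ D := by
    have := cross_le_norm e₂ (a - b) hn2
    rw [cross_sub_base e₂ a b x] at this
    linarith [st.dab]
  rcases sign_trichotomy (fun t => cross (ev t) (c - x)) (continuous_cross_ev _) a₁ a₂ h12 with
    ⟨t, ht, h0⟩ | hpos | hneg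
  · left
    exact ⟨t, ht, fan_hit st hΔ t ht h0⟩
  · right
    refine ⟨c, b, _, _, fan_stepL st hΔ h12 hpos, ?_⟩
    have hκ₁ := hpos a₁ hm1
    have hκ₂ := hpos a₂ hm2
    rw [← he₁] at hκ₁
    rw [← he₂] at hκ₂
    obtain ⟨p1, l1, -⟩ := cr_stepL hΔ' hα₁ hβ₁ hκ₁ st.ahead
    obtain ⟨p2, l2, d2⟩ := cr_stepL hΔ' hα₂ hβ₂ hκ₂ st.ahead
    refine ⟨l1.le, l2.le, ?_⟩
    have hK : cross e₂ (c - x) + -cross e₂ (b - x) ≤ D := by
      have := cross_le_norm e₂ (c - b) hn2
      rw [cross_sub_base e₂ c b x, norm_sub_rev] at this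
      linarith [st.dbc]
    have g := growth_real (cr x e₂ a b) (cr x e₂ c b - cr x e₂ a b)
      (cross e₂ (a - x) + -cross e₂ (b - x)) (cross e₂ (c - x) + -cross e₂ (b - x))
      (cross (b - x) (a - x)) (cross e₁ e₂) (orient a b c) D (-cross e₂ (b - x)) (cross e₁ (a - x))
      (by linarith) (by linarith) hK (cr_mul hα₂ hβ₂) d2
      (by rw [hoc]; nlinarith) (by linarith) (by linarith) hΔ'
    rw [st.area] at g
    have g2 : cr x e₂ a b * cross e₁ e₂ * Δ / D ^ 2 ≤ cr x e₂ c b - cr x e₂ a b := by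
      rw [div_le_iff₀ (by positivity)]; exact g
    have g3 : min (cr x e₁ a b) (cr x e₂ a b) * cross e₁ e₂ * Δ / D ^ 2 ≤
        cr x e₂ a b * cross e₁ e₂ * Δ / D ^ 2 := by
      apply div_le_div_of_nonneg_right _ (by positivity)
      apply mul_le_mul_of_nonneg_right _ hΔ.le
      exact mul_le_mul_of_nonneg_right (min_le_right _ _) hχ.le
    linarith
  · right
    refine ⟨a, c, _, _, fan_stepR st hΔ h12 hneg, ?_⟩
    have hκ₁ := hneg a₁ hm1
    have hκ₂ := hneg a₂ hm2
    rw [← he₁] at hκ₁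
    rw [← he₂] at hκ₂
    obtain ⟨p1, l1, d1⟩ := cr_stepR hΔ' hα₁ hβ₁ hκ₁ st.ahead
    obtain ⟨p2, l2, -⟩ := cr_stepR hΔ' hα₂ hβ₂ hκ₂ st.ahead
    refine ⟨l1.le, l2.le, ?_⟩
    have hK : cross e₁ (a - x) - cross e₁ (c - x) ≤ D := by
      have := cross_le_norm e₁ (a - c) hn1
      rw [cross_sub_base e₁ a c x, norm_sub_rev] at this
      linarith [st.dca]
    have g := growth_real (cr x e₁ a b) (cr x e₁ a c - cr x e₁ a b)
      (cross e₁ (a - x) + -cross e₁ (b - x)) (cross e₁ (a - x) - cross e₁ (c - x))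
      (cross (b - x) (a - x)) (cross e₁ e₂) (orient a b c) D (cross e₁ (a - x)) (-cross e₂ (b - x))
      (by linarith) (by linarith) hK (cr_mul hα₁ hβ₁) d1
      (by rw [hoc]; nlinarith) (by linarith) (by linarith) hΔ'
    rw [st.area] at g
    have g2 : cr x e₁ a b * cross e₁ e₂ * Δ / D ^ 2 ≤ cr x e₁ a c - cr x e₁ a b := by
      rw [div_le_iff₀ (by positivity)]; exact g
    have g3 : min (cr x e₁ a b) (cr x e₂ a b) * cross e₁ e₂ * Δ / D ^ 2 ≤
        cr x e₁ a b * cross e₁ e₂ * Δ / D ^ 2 := by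
      apply div_le_div_of_nonneg_right _ (by positivity)
      apply mul_le_mul_of_nonneg_right _ hΔ.le
      exact mul_le_mul_of_nonneg_right (min_le_left _ _) hχ.le
    linarith

lemma fan_bound {F₀ : ℂ → ℂ → ℝ} {S : Set ℝ} {x : ℂ} {a₁ a₂ Δ D : ℝ} {a b c : ℂ} {F : ℂ → ℂ → ℝ}
    (st : FanState F₀ S x a₁ a₂ Δ D a b c F) (hΔ : 0 < Δ) (h12 : a₁ ≤ a₂) :
    0 < cr x (ev a₁) a b ∧ 0 < cr x (ev a₂) a b ∧
    (cr x (ev a₁) a b + cr x (ev a₂) a b) * cross (ev a₁) (ev a₂) ≤ 2 * D := by
  have hD : 0 < D := fan_D_pos st hΔ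
  have hm1 : a₁ ∈ Set.Icc a₁ a₂ := ⟨le_refl _, h12⟩
  have hm2 : a₂ ∈ Set.Icc a₁ a₂ := ⟨h12, le_refl _⟩
  set e₁ := ev a₁ with he₁
  set e₂ := ev a₂ with he₂
  have hα₁ := st.left a₁ hm1
  have hα₂ := st.left a₂ hm2
  have hβ₁ := st.right a₁ hm1
  have hβ₂ := st.right a₂ hm2
  rw [← he₁] at hα₁ hβ₁
  rw [← he₂] at hα₂ hβ₂
  have hoc := omega_chi e₁ e₂ a b x
  have hn1 : ‖e₁‖ = 1 := norm_ev a₁
  have hn2 : ‖e₂‖ = 1 := norm_ev a₂
  have hP1 : cross e₁ (a - x) + -cross e₁ (b - x) ≤ D := by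
    have := cross_le_norm e₁ (a - b) hn1
    rw [cross_sub_base e₁ a b x] at this
    linarith [st.dab]
  have hP2 : cross e₂ (a - x) + -cross e₂ (b - x) ≤ D := by
    have := cross_le_norm e₂ (a - b) hn2
    rw [cross_sub_base e₂ a b x] at this
    linarith [st.dab]
  have m1 := cr_mul hα₁ hβ₁
  have m2 := cr_mul hα₂ hβ₂
  have q1 : 0 < cross e₁ (a - x) + -cross e₁ (b - x) := by linarith
  have q2 : 0 < cross e₂ (a - x) + -cross e₂ (b - x) := by linarith
  have p1 : 0 < cr x e₁ a b := by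
    have : 0 < cr x e₁ a b * (cross e₁ (a - x) + -cross e₁ (b - x)) := by rw [m1]; exact st.ahead
    exact (pos_iff_pos_of_mul_pos this).mpr q1
  have p2 : 0 < cr x e₂ a b := by
    have : 0 < cr x e₂ a b * (cross e₂ (a - x) + -cross e₂ (b - x)) := by rw [m2]; exact st.ahead
    exact (pos_iff_pos_of_mul_pos this).mpr q2
  refine ⟨p1, p2, ?_⟩
  have b1 : cr x e₁ a b * cross e₁ e₂ ≤ D := by
    apply le_of_mul_le_mul_right _ q1
    have : cr x e₁ a b * cross e₁ e₂ * (cross e₁ (a - x) + -cross e₁ (b - x)) =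
        cross (b - x) (a - x) * cross e₁ e₂ := by rw [← m1]; ring
    rw [this, hoc]
    nlinarith
  have b2 : cr x e₂ a b * cross e₁ e₂ ≤ D := by
    apply le_of_mul_le_mul_right _ q2
    have : cr x e₂ a b * cross e₁ e₂ * (cross e₂ (a - x) + -cross e₂ (b - x)) =
        cross (b - x) (a - x) * cross e₁ e₂ := by rw [← m2]; ring
    rw [this, hoc]
    nlinarith
  nlinarith

/-- A fan of rays cannot be unfolded for ever: one of its rays reaches a vertex. -/
theorem fan_main {F₀ : ℂ → ℂ → ℝ} {S : Set ℝ} {x : ℂ} {a₁ a₂ Δ D : ℝ} {a b c : ℂ} {F : ℂ → ℂ → ℝ}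
    (st : FanState F₀ S x a₁ a₂ Δ D a b c F) (hΔ : 0 < Δ) (h12 : a₁ ≤ a₂)
    (hχ : 0 < cross (ev a₁) (ev a₂)) : ∃ t ∈ Set.Icc a₁ a₂, F₀ x (ev t) ∈ S := by
  by_contra hno
  have hD : 0 < D := fan_D_pos st hΔ
  obtain ⟨p1, p2, -⟩ := fan_bound st hΔ h12
  set σ₀ := min (cr x (ev a₁) a b) (cr x (ev a₂) a b) with hσ₀
  have hσ₀pos : 0 < σ₀ := lt_min p1 p2
  set χ := cross (ev a₁) (ev a₂) with hχd
  set δ := σ₀ * χ * Δ / D ^ 2 with hδ
  have hδpos : 0 < δ := by rw [hδ]; positivity
  have claim : ∀ n : ℕ, ∃ a' b' c' F', FanState F₀ S x a₁ a₂ Δ D a' b' c' F' ∧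
      σ₀ ≤ cr x (ev a₁) a' b' ∧ σ₀ ≤ cr x (ev a₂) a' b' ∧
      n * δ ≤ cr x (ev a₁) a' b' + cr x (ev a₂) a' b' := by
    intro n
    induction n with
    | zero =>
      refine ⟨a, b, c, F, st, min_le_left _ _, min_le_right _ _, ?_⟩
      simp only [Nat.cast_zero, zero_mul]
      linarith
    | succ n ih =>
      obtain ⟨a', b', c', F', st', s1, s2, s3⟩ := ih
      rcases fan_step st' hΔ h12 hχ with hit | ⟨a'', b'', c'', F'', st'', t1, t2, t3⟩
      · exact absurd hit hno
      · refine ⟨a'', b'', c'', F'', st'', s1.trans t1, s2.trans t2, ?_⟩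
        have hmin : σ₀ ≤ min (cr x (ev a₁) a' b') (cr x (ev a₂) a' b') := le_min s1 s2
        have : δ ≤ min (cr x (ev a₁) a' b') (cr x (ev a₂) a' b') * χ * Δ / D ^ 2 := by
          rw [hδ]
          apply div_le_div_of_nonneg_right _ (by positivity)
          apply mul_le_mul_of_nonneg_right _ hΔ.le
          exact mul_le_mul_of_nonneg_right hmin hχ.le
        push_cast
        linarith
  obtain ⟨n, hn⟩ := exists_nat_gt (2 * D / χ / δ)
  obtain ⟨a', b', c', F', st', -, -, s3⟩ := claim n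
  obtain ⟨-, -, ub⟩ := fan_bound st' hΔ h12
  rw [div_lt_iff₀ hδpos, div_lt_iff₀ hχ] at hn
  nlinarith

lemma orient_base (a b x : ℂ) : orient a b x = cross (a - x) (b - x) := by
  simp [orient, cross]; ring

/-- first step of the unfolding: the fan leaves the triangle through the side `a b` -/
lemma fan_init {a b c x : ℂ} {F : ℂ → ℂ → ℝ} {S : Set ℝ} {a₁ a₂ Δ D : ℝ} (hgood : Good a b c F S)
    (harea : orient a b c = Δ) (hΔ : 0 < Δ) (dab : ‖a - b‖ ≤ D) (dbc : ‖b - c‖ ≤ D)
    (dca : ‖c - a‖ ≤ D) (hx : InTri a b c x)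
    (hl : ∀ t ∈ Set.Icc a₁ a₂, 0 < cross (ev t) (b - x))
    (hr : ∀ t ∈ Set.Icc a₁ a₂, cross (ev t) (a - x) < 0) :
    FanState F S x a₁ a₂ Δ D b a (refl a (b - a) c) (reflF a (b - a) F) := by
  have hΔ' : 0 < orient a b c := by rw [harea]; exact hΔ
  obtain ⟨hab, -, -⟩ := ne_of_orient_pos hΔ'
  have hω : 0 < cross (a - x) (b - x) := by rw [← orient_base]; exact hx.1
  constructor
  · exact hgood.refl hab
  · rw [orient_refl_tri a b c hab, harea]
  · rw [norm_sub_rev]; exact dab
  · have := norm_refl_sub a (b - a) a c hab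
    rw [refl_base] at this
    rw [this, norm_sub_rev]; exact dca
  · have := norm_refl_sub a (b - a) c b hab
    rw [refl_tip a b hab] at this
    rw [this, norm_sub_rev]; exact dbc
  · exact hl
  · exact hr
  · exact hω
  · intro t ht τ _ hy'
    set e := ev t with he
    have hα := hl t ht
    have hβ := hr t ht
    rw [← he] at hα hβ
    set α := cross e (b - x) with hαd
    set β := -cross e (a - x) with hβd
    set ω := cross (a - x) (b - x) with hωd
    have hβ0 : 0 < β := by rw [hβd]; linarith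
    have hsum : 0 < α + β := by linarith
    set s := ω / (α + β) with hs
    have hs0 : 0 < s := by rw [hs]; positivity
    have hs1 : s * (α + β) = ω := by rw [hs]; field_simp
    have hτ : s < τ := by
      have := hy'.1
      rw [orient_swap, orient_ray] at this
      have e1 : cross e (a - x) - cross e (b - x) = -(α + β) := by rw [hαd, hβd]; ring
      rw [e1, ← hωd, ← hs1] at this
      nlinarith
    set ν := β / (α + β) with hν
    have hν0 : 0 < ν := by rw [hν]; positivity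
    have hν1 : ν < 1 := by rw [hν, div_lt_one hsum]; linarith
    have hvec : ((ω : ℝ) : ℂ) * e = ((α : ℝ) : ℂ) * (a - x) + ((β : ℝ) : ℂ) * (b - x) := by
      have := cross_vec e (a - x) (b - x)
      have e1 : cross (b - x) e = -α := by rw [hαd, cross_comm]
      have e2 : cross e (a - x) = -β := by rw [hβd]; ring
      rw [e1, e2, ← hωd] at this
      push_cast at this
      linear_combination this
    have hsumC : ((α : ℂ) + (β : ℂ)) ≠ 0 := by exact_mod_cast hsum.ne'
    have hpt : x + (s : ℂ) * e = a + (ν : ℂ) * (b - a) := by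
      rw [hs, hν]
      push_cast
      field_simp
      linear_combination hvec
    have himg : refl a (b - a) (x + τ * e) =
        x + (s : ℂ) * e + ((τ - s : ℝ) : ℂ) * mirror (b - a) e := by
      have e1 : x + (τ : ℂ) * e = (a + (ν : ℂ) * (b - a)) + ((τ - s : ℝ) : ℂ) * e := by
        rw [← hpt]; push_cast; ring
      rw [e1, refl_add_smul, refl_add_smul, refl_base, mirror_self _ hab, hpt]
    have hne : a ≠ b := by
      intro h; apply hab; rw [h]; ring
    simp only [reflF]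
    rw [himg]
    symm
    apply hgood.bounce a b (by tauto) (by tauto) hne _ _ _ _ ν (norm_ev t) hs0 (by linarith) hν0 hν1 hx hpt
    rw [← himg]
    exact (inTri_refl a b c _ hab).mp hy'

lemma vec_of_cross_eq_zero (e V : ℂ) (he : ‖e‖ = 1) (h : cross e V = 0) :
    V = ((e.re * V.re + e.im * V.im : ℝ) : ℂ) * e := by
  have h1 : e.re ^ 2 + e.im ^ 2 = 1 := by
    have := Complex.sq_norm e
    rw [he, Complex.normSq_apply] at this
    nlinarith
  unfold cross at h
  apply Complex.ext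
  · simp only [Complex.re_ofReal_mul]
    have : (e.re * V.re + e.im * V.im) * e.re =
        V.re * (e.re ^ 2 + e.im ^ 2) + e.im * (e.re * V.im - e.im * V.re) := by ring
    rw [this, h1, h]; ring
  · simp only [Complex.im_ofReal_mul]
    have : (e.re * V.re + e.im * V.im) * e.im =
        V.im * (e.re ^ 2 + e.im ^ 2) - e.re * (e.re * V.im - e.im * V.re) := by ring
    rw [this, h1, h]; ring

/-- from any interior point, every fan of directions contains a direction along which the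
function takes a value in `S` -/
theorem fan_inside {a b c x : ℂ} {F : ℂ → ℂ → ℝ} {S : Set ℝ} {a₁ a₂ : ℝ} (hgood : Good a b c F S)
    (hΔ : 0 < orient a b c) (hx : InTri a b c x) (h12 : a₁ ≤ a₂)
    (hχ : 0 < cross (ev a₁) (ev a₂)) : ∃ t ∈ Set.Icc a₁ a₂, F x (ev t) ∈ S := by
  set D := max ‖a - b‖ (max ‖b - c‖ ‖c - a‖) with hD
  have dab : ‖a - b‖ ≤ D := le_max_left _ _
  have dbc : ‖b - c‖ ≤ D := (le_max_left _ _).trans (le_max_right _ _)
  have dca : ‖c - a‖ ≤ D := (le_max_right _ _).trans (le_max_right _ _)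
  have hm1 : a₁ ∈ Set.Icc a₁ a₂ := ⟨le_refl _, h12⟩
  -- a vertex in the direction of a ray (or opposite to it)
  have hzero : ∀ p, (p = a ∨ p = b ∨ p = c) → ∀ t ∈ Set.Icc a₁ a₂, cross (ev t) (p - x) = 0 →
      ∃ t ∈ Set.Icc a₁ a₂, F x (ev t) ∈ S := by
    intro p hp t ht h0
    refine ⟨t, ht, ?_⟩
    have hv := vec_of_cross_eq_zero (ev t) (p - x) (norm_ev t) h0
    set τ := (ev t).re * (p - x).re + (ev t).im * (p - x).im with hτ
    have hpx : p - x ≠ 0 := by
      intro h
      have hpx : x = p := by linear_combination (-1 : ℂ) * h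
      rcases hp with rfl | rfl | rfl
      · have := hx.1; rw [hpx] at this; simp [orient, cross] at this
      · have := hx.2.1; rw [hpx] at this; simp [orient, cross] at this
      · have := hx.2.2; rw [hpx] at this; simp [orient, cross] at this
    have hτ0 : τ ≠ 0 := by
      intro h; apply hpx; rw [hv, h]; simp
    apply hgood.sing p hp x (ev t) τ (norm_ev t) hτ0 hx
    linear_combination hv
  have wab : 0 < cross (a - x) (b - x) := by rw [← orient_base]; exact hx.1
  have wbc : 0 < cross (b - x) (c - x) := by rw [← orient_base]; exact hx.2.1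
  have wca : 0 < cross (c - x) (a - x) := by rw [← orient_base]; exact hx.2.2
  have hpl := cross_plucker (ev a₁) (a - x) (b - x) (c - x)
  rcases sign_trichotomy (fun t => cross (ev t) (a - x)) (continuous_cross_ev _) a₁ a₂ h12 with
    ⟨t, ht, h0⟩ | ha | ha
  · exact hzero a (by tauto) t ht h0
  · rcases sign_trichotomy (fun t => cross (ev t) (c - x)) (continuous_cross_ev _) a₁ a₂ h12 with
      ⟨t, ht, h0⟩ | hc | hc
    · exact hzero c (by tauto) t ht h0
    · rcases sign_trichotomy (fun t => cross (ev t) (b - x)) (continuous_cross_ev _) a₁ a₂ h12 with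
        ⟨t, ht, h0⟩ | hb | hb
      · exact hzero b (by tauto) t ht h0
      · exfalso
        have h1 := ha a₁ hm1
        have h2 := hb a₁ hm1
        have h3 := hc a₁ hm1
        have : 0 < cross (ev a₁) (a - x) * cross (b - x) (c - x) + cross (ev a₁) (b - x) * cross (c - x) (a - x) +
          cross (ev a₁) (c - x) * cross (a - x) (b - x) := by positivity
        linarith
      · -- b right, c left : side (b, c)
        have st := fan_init (a₁ := a₁) (a₂ := a₂) hgood.cyc (orient_cyc a b c) hΔ dbc dca dab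
          (inTri_cyc.mpr hx) hc hb
        exact fan_main st hΔ h12 hχ
    · -- c right, a left : side (c, a)
      have st := fan_init (a₁ := a₁) (a₂ := a₂) hgood.cyc.cyc
        ((orient_cyc b c a).trans (orient_cyc a b c)) hΔ dca dab dbc
        (inTri_cyc.mpr (inTri_cyc.mpr hx)) ha hc
      exact fan_main st hΔ h12 hχ
  · rcases sign_trichotomy (fun t => cross (ev t) (b - x)) (continuous_cross_ev _) a₁ a₂ h12 with
      ⟨t, ht, h0⟩ | hb | hb
    · exact hzero b (by tauto) t ht h0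
    · -- a right, b left : side (a, b)
      have st := fan_init (a₁ := a₁) (a₂ := a₂) hgood rfl hΔ dab dbc dca hx hb ha
      exact fan_main st hΔ h12 hχ
    · rcases sign_trichotomy (fun t => cross (ev t) (c - x)) (continuous_cross_ev _) a₁ a₂ h12 with
        ⟨t, ht, h0⟩ | hc | hc
      · exact hzero c (by tauto) t ht h0
      · -- b right, c left
        have st := fan_init (a₁ := a₁) (a₂ := a₂) hgood.cyc (orient_cyc a b c) hΔ dbc dca dab
          (inTri_cyc.mpr hx) hc hb
        exact fan_main st hΔ h12 hχ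
      · exfalso
        have h1 := ha a₁ hm1
        have h2 := hb a₁ hm1
        have h3 := hc a₁ hm1
        have : cross (ev a₁) (a - x) * cross (b - x) (c - x) + cross (ev a₁) (b - x) * cross (c - x) (a - x) +
          cross (ev a₁) (c - x) * cross (a - x) (b - x) < 0 := by nlinarith
        linarith

end Vale.Agent.Lib.P099
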