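import Vale.Agent.Lib.P099.Plane

/-!
# Passage of a billiard trajectory close to a vertex (normalized wedge)
-/

namespace Vale.Agent.Lib.P099

open Filter Topology

/-- the open circular sector of radius `ρ` and opening `γ` at the origin -/
def Sector (γ ρ : ℝ) (y : ℂ) : Prop := ‖y‖ < ρ ∧ 0 < y.im ∧ 0 < cross y (ev γ)

/-- invariance of a function of (position, direction angle) under the billiard in a sector -/
structure WedgeInv (γ ρ : ℝ) (H : ℂ → ℝ → ℝ) : Prop where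
  free : ∀ (y : ℂ) (a t : ℝ), 0 ≤ t → Sector γ ρ y → Sector γ ρ (y + t * ev a) →
    H y a = H (y + t * ev a) a
  bounceB : ∀ (y : ℂ) (a s u l : ℝ), 0 < s → 0 < u → 0 < l → l < ρ → Sector γ ρ y →
    y + s * ev a = l * ev γ → Sector γ ρ (y + s * ev a + u * ev (2 * γ - a)) →
    H y a = H (y + s * ev a + u * ev (2 * γ - a)) (2 * γ - a)
  bounceA : ∀ (y : ℂ) (a s u l : ℝ), 0 < s → 0 < u → 0 < l → l < ρ → Sector γ ρ y →
    y + s * ev a = l → Sector γ ρ (y + s * ev a + u * ev (-a)) →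
    H y a = H (y + s * ev a + u * ev (-a)) (-a)
  periodic : ∀ (y : ℂ) (a : ℝ), H y (a + 2 * Real.pi) = H y a
  cont : ContinuousOn (fun p : ℂ × ℝ => H p.1 p.2) ({y | Sector γ ρ y} ×ˢ Set.univ)

/-- the mirror map of the sector, exchanging its two sides -/
noncomputable def mir (γ : ℝ) (y : ℂ) : ℂ := ev γ * (starRingEnd ℂ) y

/-- transport of a function by the mirror symmetry of the sector -/
noncomputable def mirH (γ : ℝ) (H : ℂ → ℝ → ℝ) : ℂ → ℝ → ℝ := fun y a => H (mir γ y) (γ - a)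

lemma mir_mir (γ : ℝ) (y : ℂ) : mir γ (mir γ y) = y := by
  unfold mir
  have h1 : ev γ * (starRingEnd ℂ) (ev γ) = 1 := by
    rw [Complex.mul_conj', norm_ev]; simp
  simp only [map_mul, Complex.conj_conj]
  calc ev γ * ((starRingEnd ℂ) (ev γ) * y) = (ev γ * (starRingEnd ℂ) (ev γ)) * y := by ring
    _ = y := by rw [h1]; ring

lemma mirH_mirH (γ : ℝ) (H : ℂ → ℝ → ℝ) : mirH γ (mirH γ H) = H := by
  funext y a
  simp only [mirH, mir_mir]
  congr 1; ring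

lemma mir_add (γ : ℝ) (y z : ℂ) : mir γ (y + z) = mir γ y + mir γ z := by
  simp [mir]; ring

lemma mir_smul_ev (γ : ℝ) (t a : ℝ) : mir γ (t * ev a) = t * ev (γ - a) := by
  unfold mir
  rw [sub_eq_add_neg, ev_add, ev_neg]
  simp; ring

lemma mir_ofReal (γ : ℝ) (t : ℝ) : mir γ (t : ℂ) = t * ev γ := by
  simp [mir]; ring

lemma norm_mir (γ : ℝ) (y : ℂ) : ‖mir γ y‖ = ‖y‖ := by
  simp [mir, norm_ev]

lemma mir_im (γ : ℝ) (y : ℂ) : (mir γ y).im = cross y (ev γ) := by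
  simp [mir, cross, Complex.mul_im]; ring

lemma cross_mir (γ : ℝ) (y : ℂ) : cross (mir γ y) (ev γ) = y.im := by
  simp only [mir, cross, Complex.mul_im, Complex.mul_re, ev_re, ev_im, Complex.conj_re, Complex.conj_im]
  have := Real.sin_sq_add_cos_sq γ
  have e : (Real.cos γ * y.re - Real.sin γ * -y.im) * Real.sin γ -
      (Real.cos γ * -y.im + Real.sin γ * y.re) * Real.cos γ =
      y.im * (Real.sin γ ^ 2 + Real.cos γ ^ 2) := by ring
  rw [e, this, mul_one]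

lemma sector_mir {γ ρ : ℝ} {y : ℂ} : Sector γ ρ (mir γ y) ↔ Sector γ ρ y := by
  unfold Sector
  rw [norm_mir, mir_im, cross_mir]
  tauto

lemma continuous_mir (γ : ℝ) : Continuous (mir γ) := by
  unfold mir
  exact continuous_const.mul Complex.continuous_conj

lemma WedgeInv.mirH {γ ρ : ℝ} {H : ℂ → ℝ → ℝ} (h : WedgeInv γ ρ H) : WedgeInv γ ρ (mirH γ H) where
  free := by
    intro y a t ht hy hy'
    simp only [Vale.Agent.Lib.P099.mirH]
    rw [mir_add, mir_smul_ev]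
    apply h.free _ _ _ ht (sector_mir.mpr hy)
    rw [← mir_smul_ev, ← mir_add]
    exact sector_mir.mpr hy'
  bounceB := by
    intro y a s u l hs hu hl hlρ hy hp hy'
    simp only [Vale.Agent.Lib.P099.mirH]
    rw [mir_add, mir_add, mir_smul_ev, mir_smul_ev]
    have e1 : γ - (2 * γ - a) = -(γ - a) := by ring
    rw [e1]
    apply h.bounceA _ _ _ _ l hs hu hl hlρ (sector_mir.mpr hy)
    · rw [← mir_smul_ev, ← mir_add, hp, mir_smul_ev]
      simp [ev_zero]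
    · rw [← e1, ← mir_smul_ev, ← mir_smul_ev, ← mir_add, ← mir_add]
      exact sector_mir.mpr hy'
  bounceA := by
    intro y a s u l hs hu hl hlρ hy hp hy'
    simp only [Vale.Agent.Lib.P099.mirH]
    rw [mir_add, mir_add, mir_smul_ev, mir_smul_ev]
    have e1 : γ - (-a) = 2 * γ - (γ - a) := by ring
    rw [e1]
    apply h.bounceB _ _ _ _ l hs hu hl hlρ (sector_mir.mpr hy)
    · rw [← mir_smul_ev, ← mir_add, hp, mir_ofReal]
    · rw [← e1, ← mir_smul_ev, ← mir_smul_ev, ← mir_add, ← mir_add]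
      exact sector_mir.mpr hy'
  periodic := by
    intro y a
    simp only [Vale.Agent.Lib.P099.mirH]
    have := h.periodic (mir γ y) (γ - (a + 2 * Real.pi))
    rw [← this]; congr 1; ring
  cont := by
    have hc : Continuous (fun p : ℂ × ℝ => (mir γ p.1, γ - p.2)) :=
      ((continuous_mir γ).comp continuous_fst).prodMk (continuous_const.sub continuous_snd)
    have := h.cont.comp hc.continuousOn (s := {y | Sector γ ρ y} ×ˢ Set.univ) (by
      rintro ⟨y, a⟩ ⟨hy, -⟩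
      exact ⟨sector_mir.mpr hy, trivial⟩)
    exact this

lemma WedgeInv.iter {γ ρ : ℝ} {H : ℂ → ℝ → ℝ} (h : WedgeInv γ ρ H) (k : ℕ) :
    WedgeInv γ ρ ((Vale.Agent.Lib.P099.mirH γ)^[k] H) := by
  induction k generalizing H with
  | zero => exact h
  | succ k ih => rw [Function.iterate_succ_apply]; exact ih h.mirH

/-- the point of parameter `s` on the line at distance `ε` from the origin, travelled in
direction `-e^{iφ}` -/
noncomputable def Yl (φ ε s : ℝ) : ℂ := ev φ * ⟨s, ε⟩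

lemma Yl_im (φ ε s : ℝ) : (Yl φ ε s).im = s * Real.sin φ + ε * Real.cos φ := by
  simp [Yl, Complex.mul_im]; ring

lemma Yl_re (φ ε s : ℝ) : (Yl φ ε s).re = s * Real.cos φ - ε * Real.sin φ := by
  simp [Yl, Complex.mul_re]; ring

lemma cross_Yl (φ ε s γ : ℝ) :
    cross (Yl φ ε s) (ev γ) = s * Real.sin (γ - φ) - ε * Real.cos (γ - φ) := by
  simp only [cross, Yl_im, Yl_re, ev_re, ev_im, Real.sin_sub, Real.cos_sub]
  ring

lemma norm_Yl (φ ε s : ℝ) : ‖Yl φ ε s‖ = ‖(⟨s, ε⟩ : ℂ)‖ := by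
  simp [Yl, norm_ev]

lemma Yl_sub (φ ε s t : ℝ) : Yl φ ε (s - t) = Yl φ ε s + t * ev (φ + Real.pi) := by
  rw [ev_add_pi]
  unfold Yl
  have : (⟨s - t, ε⟩ : ℂ) = ⟨s, ε⟩ - (t : ℂ) := by
    apply Complex.ext <;> simp
  rw [this]; ring

lemma Yl_star (φ ε δ : ℝ) (hδ : Real.sin δ ≠ 0) :
    Yl φ ε (ε * Real.cos δ / Real.sin δ) = ((ε / Real.sin δ : ℝ) : ℂ) * ev (φ + δ) := by
  rw [ev_add]
  unfold Yl
  have : (⟨ε * Real.cos δ / Real.sin δ, ε⟩ : ℂ) = ((ε / Real.sin δ : ℝ) : ℂ) * ev δ := by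
    apply Complex.ext
    · simp only [Complex.re_ofReal_mul, ev_re]; field_simp
    · simp only [Complex.im_ofReal_mul, ev_im]; field_simp
  rw [this]; ring

lemma mir_Yl (γ φ ε s : ℝ) : mir γ (Yl φ ε s) = ev (γ - φ) * ⟨s, -ε⟩ := by
  unfold mir Yl
  rw [sub_eq_add_neg, ev_add, ev_neg, map_mul]
  have : (starRingEnd ℂ) (⟨s, ε⟩ : ℂ) = ⟨s, -ε⟩ := by
    apply Complex.ext <;> simp
  rw [this]; ring


lemma wedge_step {γ ρ : ℝ} {H : ℂ → ℝ → ℝ} (h : WedgeInv γ ρ H) (φ ε : ℝ) (hε : 0 < ε)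
    (hδ0 : 0 < γ - φ) (hδπ : γ - φ < Real.pi) (hερ : ε < ρ * Real.sin (γ - φ))
    (s₀ s₁ : ℝ) (h0 : Sector γ ρ (Yl φ ε s₀)) (h1 : Sector γ ρ (Yl (φ - γ) ε s₁)) :
    H (Yl φ ε s₀) (φ + Real.pi) = mirH γ H (Yl (φ - γ) ε s₁) (φ - γ + Real.pi) := by
  set δ := γ - φ with hδ
  have hsin : 0 < Real.sin δ := Real.sin_pos_of_pos_of_lt_pi hδ0 hδπ
  set ss := ε * Real.cos δ / Real.sin δ with hss
  set l := ε / Real.sin δ with hl
  have hl0 : 0 < l := div_pos hε hsin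
  have hlρ : l < ρ := by rw [hl, div_lt_iff₀ hsin]; exact hερ
  have hs0 : ss < s₀ := by
    have := h0.2.2
    rw [cross_Yl] at this
    rw [hss, div_lt_iff₀ hsin]; linarith
  have hs1 : s₁ < ss := by
    have := h1.2.1
    rw [Yl_im] at this
    have e1 : Real.sin (φ - γ) = - Real.sin δ := by rw [hδ, ← Real.sin_neg]; congr 1; ring
    have e2 : Real.cos (φ - γ) = Real.cos δ := by rw [hδ, ← Real.cos_neg]; congr 1; ring
    rw [e1, e2] at this
    rw [hss, lt_div_iff₀ hsin]; linarith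
  have hp : Yl φ ε s₀ + ((s₀ - ss : ℝ) : ℂ) * ev (φ + Real.pi) = (l : ℂ) * ev γ := by
    rw [← Yl_sub]
    have : s₀ - (s₀ - ss) = ss := by ring
    rw [this, hss, Yl_star φ ε δ hsin.ne']
    have : φ + δ = γ := by rw [hδ]; ring
    rw [this]
  have hq : Yl φ ε s₀ + ((s₀ - ss : ℝ) : ℂ) * ev (φ + Real.pi) +
      ((ss - s₁ : ℝ) : ℂ) * ev (2 * γ - (φ + Real.pi)) = mir γ (Yl (φ - γ) ε s₁) := by
    have e1 : s₁ = ss - (ss - s₁) := by ring
    conv_rhs => rw [e1]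
    rw [Yl_sub, mir_add, mir_smul_ev, hp, hss, Yl_star (φ - γ) ε δ hsin.ne']
    have e2 : φ - γ + δ = 0 := by rw [hδ]; ring
    rw [e2, ev_zero, mul_one, mir_ofReal]
    have e3 : γ - (φ - γ + Real.pi) = 2 * γ - (φ + Real.pi) := by ring
    rw [e3]
  have key := h.bounceB (Yl φ ε s₀) (φ + Real.pi) (s₀ - ss) (ss - s₁) l (by linarith) (by linarith)
    hl0 hlρ h0 hp (by rw [hq]; exact sector_mir.mpr h1)
  rw [key, hq]
  simp only [mirH]
  congr 1; ring

lemma norm_mk_le (s ε η : ℝ) : ‖(⟨s - η, ε⟩ : ℂ)‖ ≤ ‖(⟨s, ε⟩ : ℂ)‖ + |η| := by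
  have : (⟨s - η, ε⟩ : ℂ) = ⟨s, ε⟩ - (η : ℂ) := by apply Complex.ext <;> simp
  rw [this]
  calc ‖(⟨s, ε⟩ : ℂ) - (η : ℂ)‖ ≤ ‖(⟨s, ε⟩ : ℂ)‖ + ‖(η : ℂ)‖ := norm_sub_le _ _
    _ = _ := by simp

lemma wedge_sample {γ ρ : ℝ} (hγ0 : 0 < γ) (hγπ : γ < Real.pi) (φ ε : ℝ) (hε : 0 < ε)
    (hδ0 : 0 < γ - φ) (hδπ : γ - φ < Real.pi) (hερ : ε < ρ * Real.sin (γ - φ)) :
    ∃ s₁, Sector γ ρ (Yl (φ - γ) ε s₁) := by
  set δ := γ - φ with hδ
  have hsin : 0 < Real.sin δ := Real.sin_pos_of_pos_of_lt_pi hδ0 hδπ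
  have hsinγ : 0 < Real.sin γ := Real.sin_pos_of_pos_of_lt_pi hγ0 hγπ
  set ss := ε * Real.cos δ / Real.sin δ with hss
  set l := ε / Real.sin δ with hl
  have hl0 : 0 < l := div_pos hε hsin
  have hlρ : l < ρ := by rw [hl, div_lt_iff₀ hsin]; exact hερ
  set η := min (l * Real.sin γ) (ρ - l) / 2 with hη
  have hmin : 0 < min (l * Real.sin γ) (ρ - l) := lt_min (by positivity) (by linarith)
  have hη0 : 0 < η := by rw [hη]; positivity
  have hη1 : η < l * Real.sin γ := by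
    have := min_le_left (l * Real.sin γ) (ρ - l); rw [hη]; linarith
  have hη2 : η < ρ - l := by
    have := min_le_right (l * Real.sin γ) (ρ - l); rw [hη]; linarith
  have hssδ : ss * Real.sin δ = ε * Real.cos δ := by rw [hss]; field_simp
  have hlδ : l * Real.sin δ = ε := by rw [hl]; field_simp
  refine ⟨ss - η, ?_, ?_, ?_⟩
  · rw [norm_Yl]
    have h1 := norm_mk_le ss ε η
    have h2 : ‖(⟨ss, ε⟩ : ℂ)‖ = l := by
      have : (⟨ss, ε⟩ : ℂ) = (l : ℂ) * ev δ := by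
        apply Complex.ext
        · simp only [Complex.re_ofReal_mul, ev_re]; rw [hss, hl]; field_simp
        · simp only [Complex.im_ofReal_mul, ev_im]; rw [hl]; field_simp
      rw [this, norm_mul, norm_ev]; simp [abs_of_pos hl0]
    rw [h2, abs_of_pos hη0] at h1
    linarith
  · rw [Yl_im]
    have e1 : Real.sin (φ - γ) = - Real.sin δ := by rw [hδ, ← Real.sin_neg]; congr 1; ring
    have e2 : Real.cos (φ - γ) = Real.cos δ := by rw [hδ, ← Real.cos_neg]; congr 1; ring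
    rw [e1, e2]
    have : (ss - η) * -Real.sin δ + ε * Real.cos δ = η * Real.sin δ := by
      rw [← hssδ]; ring
    rw [this]; positivity
  · rw [cross_Yl]
    have e1 : γ - (φ - γ) = γ + δ := by rw [hδ]; ring
    rw [e1]
    have e2 : ss * Real.sin (γ + δ) - ε * Real.cos (γ + δ) = l * Real.sin γ := by
      rw [Real.sin_add, Real.cos_add]
      have h3 := Real.sin_sq_add_cos_sq δ
      have : ss = l * Real.cos δ := by rw [hss, hl]; field_simp
      rw [this, ← hlδ]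
      have : l * Real.cos δ * (Real.sin γ * Real.cos δ + Real.cos γ * Real.sin δ) -
          l * Real.sin δ * (Real.cos γ * Real.cos δ - Real.sin γ * Real.sin δ) =
          l * Real.sin γ * (Real.sin δ ^ 2 + Real.cos δ ^ 2) := by ring
      rw [this, h3, mul_one]
    have e3 : (ss - η) * Real.sin (γ + δ) - ε * Real.cos (γ + δ) =
        l * Real.sin γ - η * Real.sin (γ + δ) := by rw [← e2]; ring
    rw [e3]
    have h4 : Real.sin (γ + δ) ≤ 1 := Real.sin_le_one _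
    nlinarith

lemma wedge_free_line {γ ρ : ℝ} {H : ℂ → ℝ → ℝ} (h : WedgeInv γ ρ H) (φ ε s₀ s : ℝ)
    (h0 : Sector γ ρ (Yl φ ε s₀)) (h1 : Sector γ ρ (Yl φ ε s)) :
    H (Yl φ ε s₀) (φ + Real.pi) = H (Yl φ ε s) (φ + Real.pi) := by
  rcases le_total s s₀ with hle | hle
  · have e : Yl φ ε s = Yl φ ε s₀ + ((s₀ - s : ℝ) : ℂ) * ev (φ + Real.pi) := by
      rw [← Yl_sub]; congr 1; ring
    rw [e]
    apply h.free _ _ _ (by linarith) h0
    rw [← e]; exact h1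
  · have e : Yl φ ε s₀ = Yl φ ε s + ((s - s₀ : ℝ) : ℂ) * ev (φ + Real.pi) := by
      rw [← Yl_sub]; congr 1; ring
    rw [e]
    symm
    apply h.free _ _ _ (by linarith) h1
    rw [← e]; exact h0

lemma wedge_chain {γ ρ : ℝ} (hγ0 : 0 < γ) (hγπ : γ < Real.pi) (hρ : 0 < ρ) (j : ℕ) :
    ∀ (H : ℂ → ℝ → ℝ) (φ : ℝ), WedgeInv γ ρ H → φ < γ → j * γ - φ < Real.pi →
    ∃ ε₀ : ℝ, 0 < ε₀ ∧ ∀ ε, 0 < ε → ε < ε₀ → ∀ s₀ s, Sector γ ρ (Yl φ ε s₀) →
      Sector γ ρ (Yl (φ - j * γ) ε s) →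
      H (Yl φ ε s₀) (φ + Real.pi) = ((mirH γ)^[j] H) (Yl (φ - j * γ) ε s) (φ - j * γ + Real.pi) := by
  induction j with
  | zero =>
    intro H φ h _ _
    refine ⟨1, one_pos, fun ε _ _ s₀ s h0 h1 => ?_⟩
    simp only [Nat.cast_zero, zero_mul, sub_zero, Function.iterate_zero, id_eq] at h1 ⊢
    exact wedge_free_line h φ ε s₀ s h0 h1
  | succ j ih =>
    intro H φ h hφ hj
    have hjγ : 0 ≤ (j : ℝ) * γ := by positivity
    push_cast at hj
    have hδ0 : 0 < γ - φ := by linarith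
    have hδπ : γ - φ < Real.pi := by nlinarith
    have hsin : 0 < Real.sin (γ - φ) := Real.sin_pos_of_pos_of_lt_pi hδ0 hδπ
    obtain ⟨ε₁, hε₁, hih⟩ := ih (mirH γ H) (φ - γ) h.mirH (by linarith) (by nlinarith)
    refine ⟨min ε₁ (ρ * Real.sin (γ - φ)), lt_min hε₁ (by positivity), fun ε hε hεlt s₀ s h0 h1 => ?_⟩
    have hε1 : ε < ε₁ := lt_of_lt_of_le hεlt (min_le_left _ _)
    have hε2 : ε < ρ * Real.sin (γ - φ) := lt_of_lt_of_le hεlt (min_le_right _ _)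
    obtain ⟨s₁, hs₁⟩ := wedge_sample hγ0 hγπ φ ε hε hδ0 hδπ hε2
    rw [wedge_step h φ ε hε hδ0 hδπ hε2 s₀ s₁ h0 hs₁]
    have e : φ - ((j + 1 : ℕ) : ℝ) * γ = φ - γ - j * γ := by push_cast; ring
    rw [e] at h1 ⊢
    rw [Function.iterate_succ_apply]
    exact hih ε hε hε1 s₁ s hs₁ h1

lemma sector_polar {γ ρ r ψ : ℝ} (hγπ : γ < Real.pi) (hr : 0 < r) (hrρ : r < ρ) (hψ0 : 0 < ψ)
    (hψγ : ψ < γ) : Sector γ ρ (r * ev ψ) := by
  refine ⟨?_, ?_, ?_⟩
  · rw [norm_mul, norm_ev]; simp [abs_of_pos hr, hrρ]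
  · simp only [Complex.im_ofReal_mul, ev_im]
    have := Real.sin_pos_of_pos_of_lt_pi hψ0 (by linarith)
    positivity
  · rw [cross_smul_left, cross_ev_ev]
    have := Real.sin_pos_of_pos_of_lt_pi (x := γ - ψ) (by linarith) (by linarith)
    positivity

lemma isOpen_sector (γ ρ : ℝ) : IsOpen {y | Sector γ ρ y} := by
  have o1 : IsOpen {y : ℂ | ‖y‖ < ρ} := isOpen_lt continuous_norm continuous_const
  have o2 : IsOpen {y : ℂ | 0 < y.im} := isOpen_lt continuous_const Complex.continuous_im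
  have o3 : IsOpen {y : ℂ | 0 < cross y (ev γ)} := by
    apply isOpen_lt continuous_const
    simp only [cross]
    fun_prop
  exact o1.inter (o2.inter o3)

lemma tendsto_Yl (φ s : ℝ) : Tendsto (fun ε : ℝ => Yl φ ε s) (𝓝[>] 0) (𝓝 ((s : ℂ) * ev φ)) := by
  have hc : Continuous (fun ε : ℝ => Yl φ ε s) := by
    unfold Yl
    have : (fun ε : ℝ => ev φ * (⟨s, ε⟩ : ℂ)) = fun ε : ℝ => ev φ * ((s : ℂ) + (ε : ℂ) * Complex.I) := by
      funext ε
      congr 1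
      apply Complex.ext <;> simp
    rw [this]; fun_prop
  have h0 : Yl φ 0 s = (s : ℂ) * ev φ := by
    unfold Yl
    have : (⟨s, 0⟩ : ℂ) = (s : ℂ) := by apply Complex.ext <;> simp
    rw [this]; ring
  have := hc.tendsto 0
  rw [h0] at this
  exact this.mono_left nhdsWithin_le_nhds

/-- passage on the left of the vertex -/
lemma wedge_passage {γ ρ : ℝ} (hγ0 : 0 < γ) (hγπ : γ < Real.pi) {H : ℂ → ℝ → ℝ}
    (h : WedgeInv γ ρ H) (φ r : ℝ) (hφ0 : 0 < φ) (hφγ : φ < γ) (hr : 0 < r) (hrρ : r < ρ) (k : ℕ)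
    (hk1 : k * γ < φ + Real.pi) (hk2 : φ + Real.pi < (k + 1) * γ) :
    H (r * ev φ) (φ + Real.pi) =
      ((mirH γ)^[k] H) (r * ev (φ + Real.pi - k * γ)) (φ + Real.pi - k * γ) := by
  have hρ : 0 < ρ := by linarith
  obtain ⟨ε₀, hε₀, hch⟩ := wedge_chain hγ0 hγπ hρ k H φ h hφγ (by linarith)
  set K := (mirH γ)^[k] H with hK
  have hKinv : WedgeInv γ ρ K := h.iter k
  set ψ := φ + Real.pi - k * γ with hψ
  have hψ0 : 0 < ψ := by rw [hψ]; linarith
  have hψγ : ψ < γ := by rw [hψ]; linarith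
  have hA : Sector γ ρ (r * ev φ) := sector_polar hγπ hr hrρ hφ0 hφγ
  have hB : Sector γ ρ (r * ev ψ) := sector_polar hγπ hr hrρ hψ0 hψγ
  have t1 := tendsto_Yl φ r
  have t2 : Tendsto (fun ε : ℝ => Yl (φ - k * γ) ε (-r)) (𝓝[>] 0) (𝓝 ((r : ℂ) * ev ψ)) := by
    have := tendsto_Yl (φ - k * γ) (-r)
    have e : (((-r : ℝ)) : ℂ) * ev (φ - k * γ) = (r : ℂ) * ev ψ := by
      have : ψ = (φ - k * γ) + Real.pi := by rw [hψ]; ring
      rw [this, ev_add_pi]; push_cast; ring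
    rwa [e] at this
  -- continuity in position
  have c1 : ContinuousAt (fun y : ℂ => H y (φ + Real.pi)) (r * ev φ) := by
    have hca : ContinuousAt (fun p : ℂ × ℝ => H p.1 p.2) ((r : ℂ) * ev φ, φ + Real.pi) :=
      h.cont.continuousAt (((isOpen_sector γ ρ).prod isOpen_univ).mem_nhds ⟨hA, trivial⟩)
    exact hca.comp (f := fun y : ℂ => (y, φ + Real.pi)) (by fun_prop)
  have c2 : ContinuousAt (fun y : ℂ => K y ψ) (r * ev ψ) := by
    have hca : ContinuousAt (fun p : ℂ × ℝ => K p.1 p.2) ((r : ℂ) * ev ψ, ψ) :=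
      hKinv.cont.continuousAt (((isOpen_sector γ ρ).prod isOpen_univ).mem_nhds ⟨hB, trivial⟩)
    exact hca.comp (f := fun y : ℂ => (y, ψ)) (by fun_prop)
  have l1 : Tendsto (fun ε : ℝ => H (Yl φ ε r) (φ + Real.pi)) (𝓝[>] 0) (𝓝 (H (r * ev φ) (φ + Real.pi))) :=
    c1.tendsto.comp t1
  have l2 : Tendsto (fun ε : ℝ => K (Yl (φ - k * γ) ε (-r)) ψ) (𝓝[>] 0) (𝓝 (K (r * ev ψ) ψ)) :=
    c2.tendsto.comp t2
  have ev1 : ∀ᶠ ε in 𝓝[>] (0 : ℝ), Sector γ ρ (Yl φ ε r) :=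
    t1.eventually ((isOpen_sector γ ρ).mem_nhds hA)
  have ev2 : ∀ᶠ ε in 𝓝[>] (0 : ℝ), Sector γ ρ (Yl (φ - k * γ) ε (-r)) :=
    t2.eventually ((isOpen_sector γ ρ).mem_nhds hB)
  have ev3 : ∀ᶠ ε in 𝓝[>] (0 : ℝ), 0 < ε ∧ ε < ε₀ := by
    have : Set.Ioo (0 : ℝ) ε₀ ∈ 𝓝[>] (0 : ℝ) := Ioo_mem_nhdsGT hε₀
    exact this
  have heq : (fun ε : ℝ => H (Yl φ ε r) (φ + Real.pi)) =ᶠ[𝓝[>] 0]
      (fun ε : ℝ => K (Yl (φ - k * γ) ε (-r)) ψ) := by
    filter_upwards [ev1, ev2, ev3] with ε h1 h2 h3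
    have := hch ε h3.1 h3.2 r (-r) h1 h2
    rw [this]
    have e : φ - k * γ + Real.pi = ψ := by rw [hψ]; ring
    rw [e]
  exact tendsto_nhds_unique (l1.congr' heq) l2

/-- the zigzag (folding) map `ℝ → [0, γ]` of period `2γ` -/
noncomputable def fold (γ x : ℝ) : ℝ := γ / Real.pi * Real.arccos (Real.cos (Real.pi * x / γ))

lemma continuous_fold (γ : ℝ) : Continuous (fold γ) := by
  unfold fold
  have : Continuous fun x : ℝ => Real.arccos (Real.cos (Real.pi * x / γ)) :=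
    Real.continuous_arccos.comp (Real.continuous_cos.comp (by fun_prop))
  exact continuous_const.mul this

lemma fold_of_mem {γ x : ℝ} (hγ : 0 < γ) (h0 : 0 ≤ x) (h1 : x ≤ γ) : fold γ x = x := by
  unfold fold
  have hpi := Real.pi_pos
  rw [Real.arccos_cos (by positivity) (by rw [div_le_iff₀ hγ]; nlinarith)]
  field_simp

lemma fold_add {γ : ℝ} (hγ : 0 < γ) (x : ℝ) : fold γ (x + γ) = γ - fold γ x := by
  unfold fold
  have hpi := Real.pi_pos
  have e : Real.pi * (x + γ) / γ = Real.pi * x / γ + Real.pi := by field_simp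
  rw [e, Real.cos_add_pi, Real.arccos_neg]
  field_simp

lemma fold_neg (γ x : ℝ) : fold γ (-x) = fold γ x := by
  unfold fold
  have e : Real.pi * (-x) / γ = -(Real.pi * x / γ) := by ring
  rw [e, Real.cos_neg]

lemma fold_add_two {γ : ℝ} (hγ : 0 < γ) (x : ℝ) : fold γ (x + 2 * γ) = fold γ x := by
  have : x + 2 * γ = (x + γ) + γ := by ring
  rw [this, fold_add hγ, fold_add hγ]; ring

lemma fold_add_int {γ : ℝ} (hγ : 0 < γ) (x : ℝ) (k : ℤ) : fold γ (x + k * (2 * γ)) = fold γ x := by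
  unfold fold
  have e : Real.pi * (x + k * (2 * γ)) / γ = Real.pi * x / γ + k * (2 * Real.pi) := by field_simp
  rw [e, Real.cos_add_int_mul_two_pi]

/-- `x` is `± fold x` up to a multiple of `2γ` -/
lemma fold_spec {γ : ℝ} (hγ : 0 < γ) (x : ℝ) :
    ∃ k : ℤ, x = fold γ x + k * (2 * γ) ∨ x = - fold γ x + k * (2 * γ) := by
  have hpi := Real.pi_pos
  have h1 : Real.cos (Real.arccos (Real.cos (Real.pi * x / γ))) = Real.cos (Real.pi * x / γ) :=
    Real.cos_arccos (Real.neg_one_le_cos _) (Real.cos_le_one _)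
  rw [Real.cos_eq_cos_iff] at h1
  obtain ⟨k, hk⟩ := h1
  refine ⟨k, ?_⟩
  unfold fold
  rcases hk with hk | hk
  · left
    have : x = γ / Real.pi * (Real.pi * x / γ) := by field_simp
    conv_lhs => rw [this, hk]
    field_simp
    ring
  · right
    have : x = γ / Real.pi * (Real.pi * x / γ) := by field_simp
    conv_lhs => rw [this, hk]
    field_simp
    ring

lemma fold_mem_Icc {γ : ℝ} (hγ : 0 < γ) (x : ℝ) : 0 ≤ fold γ x ∧ fold γ x ≤ γ := by
  unfold fold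
  have hpi := Real.pi_pos
  constructor
  · have := Real.arccos_nonneg (Real.cos (Real.pi * x / γ))
    positivity
  · have := Real.arccos_le_pi (Real.cos (Real.pi * x / γ))
    calc γ / Real.pi * Real.arccos (Real.cos (Real.pi * x / γ)) ≤ γ / Real.pi * Real.pi := by
          apply mul_le_mul_of_nonneg_left this (by positivity)
      _ = γ := by field_simp

/-- if `x` is not a multiple of `γ`, its fold is in the open interval -/
lemma fold_mem_Ioo {γ : ℝ} (hγ : 0 < γ) (x : ℝ) (hx : ∀ k : ℤ, x ≠ k * γ) :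
    0 < fold γ x ∧ fold γ x < γ := by
  obtain ⟨h0, h1⟩ := fold_mem_Icc hγ x
  obtain ⟨k, hk⟩ := fold_spec hγ x
  constructor
  · rcases h0.lt_or_eq with h | h
    · exact h
    · exfalso
      rw [← h] at hk
      apply hx (2 * k)
      push_cast
      rcases hk with hk | hk <;> linarith
  · rcases h1.lt_or_eq with h | h
    · exact h
    · exfalso
      rw [h] at hk
      rcases hk with hk | hk
      · apply hx (2 * k + 1); push_cast; linarith
      · apply hx (2 * k - 1); push_cast; linarith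

lemma iter_out {γ : ℝ} (hγ : 0 < γ) (r : ℝ) (k : ℕ) : ∀ (H : ℂ → ℝ → ℝ) (ψ : ℝ), 0 ≤ ψ → ψ ≤ γ →
    ((mirH γ)^[k] H) (r * ev ψ) ψ = H (r * ev (fold γ (ψ + k * γ))) (fold γ (ψ + k * γ)) := by
  induction k with
  | zero =>
    intro H ψ h0 h1
    simp [fold_of_mem hγ h0 h1]
  | succ k ih =>
    intro H ψ h0 h1
    rw [Function.iterate_succ_apply, ih (mirH γ H) ψ h0 h1]
    have e : ψ + ((k + 1 : ℕ) : ℝ) * γ = (ψ + k * γ) + γ := by push_cast; ring
    rw [e, fold_add hγ]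
    simp only [mirH, mir_smul_ev]

lemma wedge_left {γ ρ : ℝ} (hγ0 : 0 < γ) (hγπ : γ < Real.pi) {H : ℂ → ℝ → ℝ}
    (h : WedgeInv γ ρ H) (φ r : ℝ) (hφ0 : 0 < φ) (hφγ : φ < γ) (hr : 0 < r) (hrρ : r < ρ)
    (hne : ∀ k : ℤ, φ + Real.pi ≠ k * γ) :
    H (r * ev φ) (φ + Real.pi) = H (r * ev (fold γ (φ + Real.pi))) (fold γ (φ + Real.pi)) := by
  have hpi := Real.pi_pos
  set k := ⌊(φ + Real.pi) / γ⌋₊ with hk
  have hpos : 0 ≤ (φ + Real.pi) / γ := by positivity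
  have h1 : (k : ℝ) ≤ (φ + Real.pi) / γ := Nat.floor_le hpos
  have h2 : (φ + Real.pi) / γ < k + 1 := Nat.lt_floor_add_one _
  rw [le_div_iff₀ hγ0] at h1
  rw [div_lt_iff₀ hγ0] at h2
  have h1' : (k : ℝ) * γ < φ + Real.pi := by
    rcases h1.lt_or_eq with h | h
    · exact h
    · exact absurd h.symm (by simpa using hne k)
  rw [wedge_passage hγ0 hγπ h φ r hφ0 hφγ hr hrρ k h1' h2]
  rw [iter_out hγ0 r k H _ (by linarith) (by linarith)]
  have e : φ + Real.pi - k * γ + k * γ = φ + Real.pi := by ring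
  rw [e]

lemma wedge_right {γ ρ : ℝ} (hγ0 : 0 < γ) (hγπ : γ < Real.pi) {H : ℂ → ℝ → ℝ}
    (h : WedgeInv γ ρ H) (φ r : ℝ) (hφ0 : 0 < φ) (hφγ : φ < γ) (hr : 0 < r) (hrρ : r < ρ)
    (hne : ∀ k : ℤ, φ - Real.pi ≠ k * γ) :
    H (r * ev φ) (φ + Real.pi) = H (r * ev (fold γ (φ - Real.pi))) (fold γ (φ - Real.pi)) := by
  have key := wedge_left hγ0 hγπ h.mirH (γ - φ) r (by linarith) (by linarith) hr hrρ (by
    intro k hk
    apply hne (1 - k)
    push_cast; linarith)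
  simp only [mirH, mir_smul_ev] at key
  have e1 : γ - (γ - φ) = φ := by ring
  have e2 : γ - (γ - φ + Real.pi) = φ - Real.pi := by ring
  have e3 : γ - fold γ (γ - φ + Real.pi) = fold γ (φ - Real.pi) := by
    have : γ - φ + Real.pi = -(φ - Real.pi) + γ := by ring
    rw [this, fold_add hγ0, fold_neg]; ring
  rw [e1, e2, e3] at key
  rw [← key, ← h.periodic _ (φ - Real.pi)]
  congr 1; ring

lemma fold_const {γ : ℝ} (hγ0 : 0 < γ) (hirr : ¬ ∃ q : ℚ, γ = q * Real.pi) (g : ℝ → ℝ)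
    (hg : ContinuousOn g (Set.Ioo 0 γ))
    (hrel : ∀ φ, 0 < φ → φ < γ → (∀ k : ℤ, φ + Real.pi ≠ k * γ) → (∀ k : ℤ, φ - Real.pi ≠ k * γ) →
      g (fold γ (φ + Real.pi)) = g (fold γ (φ - Real.pi))) :
    ∀ ψ, 0 < ψ → ψ < γ → g ψ = g (γ / 2) := by
  have hpi := Real.pi_pos
  -- Step 1
  have step1 : ∀ x : ℝ, (∀ k : ℤ, x ≠ k * γ) → (∀ k : ℤ, x + Real.pi ≠ k * γ) →
      (∀ k : ℤ, x - Real.pi ≠ k * γ) → g (fold γ (x + Real.pi)) = g (fold γ (x - Real.pi)) := by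
    intro x hx hx1 hx2
    obtain ⟨hφ0, hφγ⟩ := fold_mem_Ioo hγ0 x hx
    obtain ⟨k, hk⟩ := fold_spec hγ0 x
    set φ := fold γ x with hφ
    rcases hk with hk | hk
    · have e1 : x + Real.pi = (φ + Real.pi) + k * (2 * γ) := by linarith
      have e2 : x - Real.pi = (φ - Real.pi) + k * (2 * γ) := by linarith
      rw [e1, e2, fold_add_int hγ0, fold_add_int hγ0]
      apply hrel φ hφ0 hφγ
      · intro m hm; apply hx1 (m + 2 * k); push_cast; linarith
      · intro m hm; apply hx2 (m + 2 * k); push_cast; linarith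
    · have e1 : x + Real.pi = -(φ - Real.pi) + k * (2 * γ) := by linarith
      have e2 : x - Real.pi = -(φ + Real.pi) + k * (2 * γ) := by linarith
      rw [e1, e2, fold_add_int hγ0, fold_add_int hγ0, fold_neg, fold_neg]
      symm
      apply hrel φ hφ0 hφγ
      · intro m hm; apply hx2 (-m + 2 * k); push_cast; linarith
      · intro m hm; apply hx1 (-m + 2 * k); push_cast; linarith
  -- arithmetic
  have harith : ∀ m k : ℤ, γ / 2 + m * Real.pi ≠ k * γ := by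
    intro m k hmk
    apply hirr
    refine ⟨(2 * m : ℚ) / (2 * k - 1), ?_⟩
    have hne : (2 * (k : ℝ) - 1) ≠ 0 := by
      intro h0
      have : (2 * k - 1 : ℤ) = 0 := by exact_mod_cast h0
      omega
    push_cast
    field_simp
    linarith
  -- Step 2
  have step2 : ∀ n : ℤ, g (fold γ (γ / 2 + n * (2 * Real.pi))) = g (γ / 2) := by
    intro n
    induction n using Int.induction_on with
    | zero => simp [fold_of_mem hγ0 (by linarith : (0:ℝ) ≤ γ / 2) (by linarith)]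
    | succ n ih =>
      have := step1 (γ / 2 + (2 * n + 1 : ℤ) * Real.pi) (harith _) (by
        intro k hk; apply harith (2 * n + 2) k; push_cast at hk ⊢; linarith) (by
        intro k hk; apply harith (2 * n) k; push_cast at hk ⊢; linarith)
      have e1 : γ / 2 + ((2 * n + 1 : ℤ) : ℝ) * Real.pi + Real.pi = γ / 2 + ((n + 1 : ℤ) : ℝ) * (2 * Real.pi) := by
        push_cast; ring
      have e2 : γ / 2 + ((2 * n + 1 : ℤ) : ℝ) * Real.pi - Real.pi = γ / 2 + ((n : ℤ) : ℝ) * (2 * Real.pi) := by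
        push_cast; ring
      rw [e1, e2] at this
      rw [this]; exact ih
    | pred n ih =>
      have := step1 (γ / 2 + (2 * (-n : ℤ) - 1 : ℤ) * Real.pi) (harith _) (by
        intro k hk; apply harith (2 * (-n : ℤ)) k; push_cast at hk ⊢; linarith) (by
        intro k hk; apply harith (2 * (-n : ℤ) - 2) k; push_cast at hk ⊢; linarith)
      have e1 : γ / 2 + ((2 * (-n : ℤ) - 1 : ℤ) : ℝ) * Real.pi + Real.pi = γ / 2 + ((-n : ℤ) : ℝ) * (2 * Real.pi) := by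
        push_cast; ring
      have e2 : γ / 2 + ((2 * (-n : ℤ) - 1 : ℤ) : ℝ) * Real.pi - Real.pi = γ / 2 + ((-n - 1 : ℤ) : ℝ) * (2 * Real.pi) := by
        push_cast; ring
      rw [e1, e2] at this
      rw [← this]; exact ih
  -- Step 3
  have hdense : Dense (AddSubgroup.closure {2 * Real.pi, 2 * γ} : Set ℝ) := by
    rw [dense_addSubgroupClosure_pair_iff]
    intro ⟨q, hq⟩
    apply hirr
    have hq0 : (q : ℝ) ≠ 0 := by
      rw [hq]; positivity
    refine ⟨1 / q, ?_⟩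
    push_cast
    field_simp at hq ⊢
    linarith
  intro ψ hψ0 hψγ
  set Γ : ℝ → ℝ := fun z => g (fold γ (z + γ / 2)) with hΓ
  have hcont : ContinuousAt Γ (ψ - γ / 2) := by
    have h1 : ContinuousAt g (fold γ (ψ - γ / 2 + γ / 2)) := by
      have : ψ - γ / 2 + γ / 2 = ψ := by ring
      rw [this, fold_of_mem hγ0 hψ0.le hψγ.le]
      exact hg.continuousAt (Ioo_mem_nhds hψ0 hψγ)
    exact ContinuousAt.comp (f := fun z => fold γ (z + γ / 2)) h1
      ((continuous_fold γ).comp (by fun_prop)).continuousAt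
  have hfreq : ∃ᶠ z in 𝓝 (ψ - γ / 2), z ∈ (AddSubgroup.closure {2 * Real.pi, 2 * γ} : Set ℝ) :=
    mem_closure_iff_frequently.mp (hdense _)
  have hval : ∀ z ∈ (AddSubgroup.closure {2 * Real.pi, 2 * γ} : Set ℝ), Γ z = g (γ / 2) := by
    intro z hz
    rw [SetLike.mem_coe, AddSubgroup.mem_closure_pair] at hz
    obtain ⟨m, n, hmn⟩ := hz
    simp only [hΓ]
    have : z + γ / 2 = (γ / 2 + m * (2 * Real.pi)) + n * (2 * γ) := by
      rw [← hmn]; simp; ring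
    rw [this, fold_add_int hγ0, step2]
  have hΓψ : Γ (ψ - γ / 2) = g ψ := by
    simp only [hΓ]
    have : ψ - γ / 2 + γ / 2 = ψ := by ring
    rw [this, fold_of_mem hγ0 hψ0.le hψγ.le]
  rw [← hΓψ]
  by_contra hne
  have hopen : {v : ℝ | v ≠ g (γ / 2)} ∈ 𝓝 (Γ (ψ - γ / 2)) := isOpen_ne.mem_nhds hne
  have hev : ∀ᶠ z in 𝓝 (ψ - γ / 2), Γ z ≠ g (γ / 2) := hcont.tendsto.eventually hopen
  obtain ⟨z, hz1, hz2⟩ := (hfreq.and_eventually hev).exists
  exact hz2 (hval z hz1)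

lemma wedge_radial_out {γ ρ : ℝ} (hγπ : γ < Real.pi) {H : ℂ → ℝ → ℝ}
    (h : WedgeInv γ ρ H) (ψ r r' : ℝ) (hψ0 : 0 < ψ) (hψγ : ψ < γ) (hr : 0 < r) (hrρ : r < ρ)
    (hr' : 0 < r') (hrρ' : r' < ρ) : H (r * ev ψ) ψ = H (r' * ev ψ) ψ := by
  have hA := sector_polar hγπ hr hrρ hψ0 hψγ
  have hB := sector_polar hγπ hr' hrρ' hψ0 hψγ
  rcases le_total r r' with hle | hle
  · have e : (r' : ℂ) * ev ψ = r * ev ψ + ((r' - r : ℝ) : ℂ) * ev ψ := by push_cast; ring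
    rw [e]
    apply h.free _ _ _ (by linarith) hA
    rw [← e]; exact hB
  · have e : (r : ℂ) * ev ψ = r' * ev ψ + ((r - r' : ℝ) : ℂ) * ev ψ := by push_cast; ring
    rw [e]; symm
    apply h.free _ _ _ (by linarith) hB
    rw [← e]; exact hA

lemma wedge_radial_in {γ ρ : ℝ} (hγπ : γ < Real.pi) {H : ℂ → ℝ → ℝ}
    (h : WedgeInv γ ρ H) (ψ r r' : ℝ) (hψ0 : 0 < ψ) (hψγ : ψ < γ) (hr : 0 < r) (hrρ : r < ρ)
    (hr' : 0 < r') (hrρ' : r' < ρ) :
    H (r * ev ψ) (ψ + Real.pi) = H (r' * ev ψ) (ψ + Real.pi) := by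
  have hA := sector_polar hγπ hr hrρ hψ0 hψγ
  have hB := sector_polar hγπ hr' hrρ' hψ0 hψγ
  rcases le_total r r' with hle | hle
  · have e : (r : ℂ) * ev ψ = r' * ev ψ + ((r' - r : ℝ) : ℂ) * ev (ψ + Real.pi) := by
      rw [ev_add_pi]; push_cast; ring
    rw [e]; symm
    apply h.free _ _ _ (by linarith) hB
    rw [← e]; exact hA
  · have e : (r' : ℂ) * ev ψ = r * ev ψ + ((r - r' : ℝ) : ℂ) * ev (ψ + Real.pi) := by
      rw [ev_add_pi]; push_cast; ring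
    rw [e]
    apply h.free _ _ _ (by linarith) hA
    rw [← e]; exact hB

/-- At a vertex whose angle is an irrational multiple of `π`, a continuous invariant function
takes one and the same value on all trajectories that start or end at the vertex. -/
theorem wedge_const {γ ρ : ℝ} (hγ0 : 0 < γ) (hγπ : γ < Real.pi) (hρ : 0 < ρ)
    (hirr : ¬ ∃ q : ℚ, γ = q * Real.pi) {H : ℂ → ℝ → ℝ} (h : WedgeInv γ ρ H) :
    ∃ c : ℝ, ∀ r ψ, 0 < r → r < ρ → 0 < ψ → ψ < γ →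
      H (r * ev ψ) ψ = c ∧ H (r * ev ψ) (ψ + Real.pi) = c := by
  have hpi := Real.pi_pos
  set r₀ := ρ / 2 with hr₀
  have hr0 : 0 < r₀ := by rw [hr₀]; positivity
  have hr0ρ : r₀ < ρ := by rw [hr₀]; linarith
  set g : ℝ → ℝ := fun ψ => H (r₀ * ev ψ) ψ with hg
  have hgc : ContinuousOn g (Set.Ioo 0 γ) := by
    have hc : Continuous (fun ψ : ℝ => ((r₀ : ℂ) * ev ψ, ψ)) :=
      (continuous_const.mul continuous_ev).prodMk continuous_id
    exact h.cont.comp hc.continuousOn (fun ψ hψ => ⟨sector_polar hγπ hr0 hr0ρ hψ.1 hψ.2, trivial⟩)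
  have hconst := fold_const hγ0 hirr g hgc (by
    intro φ h0 h1 hk1 hk2
    simp only [hg]
    rw [← wedge_left hγ0 hγπ h φ r₀ h0 h1 hr0 hr0ρ hk1, ← wedge_right hγ0 hγπ h φ r₀ h0 h1 hr0 hr0ρ hk2])
  refine ⟨g (γ / 2), fun r ψ hr hrρ hψ0 hψγ => ⟨?_, ?_⟩⟩
  · rw [wedge_radial_out hγπ h ψ r r₀ hψ0 hψγ hr hrρ hr0 hr0ρ]
    exact hconst ψ hψ0 hψγ
  · rw [wedge_radial_in hγπ h ψ r r₀ hψ0 hψγ hr hrρ hr0 hr0ρ]
    by_cases hk : ∀ k : ℤ, ψ + Real.pi ≠ k * γ
    · rw [wedge_left hγ0 hγπ h ψ r₀ hψ0 hψγ hr0 hr0ρ hk]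
      obtain ⟨f0, f1⟩ := fold_mem_Ioo hγ0 _ hk
      exact hconst _ f0 f1
    · push Not at hk
      obtain ⟨k, hk⟩ := hk
      have hk2 : ∀ k' : ℤ, ψ - Real.pi ≠ k' * γ := by
        intro k' hk'
        apply hirr
        have hd : (2 : ℝ) * Real.pi = ((k : ℝ) - k') * γ := by linarith
        have hne : ((k : ℝ) - k') ≠ 0 := by
          intro h0; rw [h0] at hd; linarith
        refine ⟨2 / ((k : ℚ) - k'), ?_⟩
        push_cast
        field_simp
        linarith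
      rw [wedge_right hγ0 hγπ h ψ r₀ hψ0 hψγ hr0 hr0ρ hk2]
      obtain ⟨f0, f1⟩ := fold_mem_Ioo hγ0 _ hk2
      exact hconst _ f0 f1

end Vale.Agent.Lib.P099
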