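import Vale.Agent.Lib.P099.Fan
import Vale.Agent.Lib.P099.Wedge

/-!
# Continuous first integrals of the billiard in a triangle with irrational angles
-/

namespace Vale.Agent.Lib.P099

lemma orient_coord (P : Fin 3 → ℂ) (hP : AffineIndependent ℝ P) (y : ℂ) :
    orient (P 1) (P 2) y = (triBasis P hP).coord 0 y * orient (P 0) (P 1) (P 2) ∧
    orient (P 2) (P 0) y = (triBasis P hP).coord 1 y * orient (P 0) (P 1) (P 2) ∧
    orient (P 0) (P 1) y = (triBasis P hP).coord 2 y * orient (P 0) (P 1) (P 2) := by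
  have hs := (triBasis P hP).sum_coord_apply_eq_one y
  have hc := (triBasis P hP).linear_combination_coord_eq_self y
  rw [Fin.sum_univ_three] at hs hc
  simp only [triBasis_apply, Complex.real_smul] at hc
  set c0 := (triBasis P hP).coord 0 y
  set c1 := (triBasis P hP).coord 1 y
  set c2 := (triBasis P hP).coord 2 y
  have hre : y.re = c0 * (P 0).re + c1 * (P 1).re + c2 * (P 2).re := by
    rw [← hc]; simp
  have him : y.im = c0 * (P 0).im + c1 * (P 1).im + c2 * (P 2).im := by
    rw [← hc]; simp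
  have h1 : c1 = 1 - c0 - c2 := by linarith
  refine ⟨?_, ?_, ?_⟩
  · simp only [orient, cross, Complex.sub_re, Complex.sub_im, hre, him, h1]; ring
  · simp only [orient, cross, Complex.sub_re, Complex.sub_im, hre, him, h1]; ring
  · simp only [orient, cross, Complex.sub_re, Complex.sub_im, hre, him, h1]; ring

lemma orient_ne_zero (P : Fin 3 → ℂ) (hP : AffineIndependent ℝ P) : orient (P 0) (P 1) (P 2) ≠ 0 := by
  intro h0
  have h1 : ∀ y, orient (P 1) (P 2) y = 0 := by
    intro y; rw [(orient_coord P hP y).1, h0, mul_zero]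
  have h2 := h1 (P 1 + 1)
  have h3 := h1 (P 1 + Complex.I)
  simp [orient, cross] at h2 h3
  have : P 2 = P 1 := by
    apply Complex.ext <;> linarith
  have := hP.injective this
  simp at this

lemma mem_table_pos (P : Fin 3 → ℂ) (hP : AffineIndependent ℝ P) (h : 0 < orient (P 0) (P 1) (P 2))
    (y : ℂ) : y ∈ table P ↔ InTri (P 0) (P 1) (P 2) y := by
  rw [mem_table_iff P hP]
  obtain ⟨h0, h1, h2⟩ := orient_coord P hP y
  unfold InTri
  rw [h0, h1, h2]
  constructor
  · intro hall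
    exact ⟨mul_pos (hall 2) h, mul_pos (hall 0) h, mul_pos (hall 1) h⟩
  · rintro ⟨g2, g0, g1⟩ i
    fin_cases i
    · exact (pos_iff_pos_of_mul_pos g0).mpr h
    · exact (pos_iff_pos_of_mul_pos g1).mpr h
    · exact (pos_iff_pos_of_mul_pos g2).mpr h

lemma mem_table_neg (P : Fin 3 → ℂ) (hP : AffineIndependent ℝ P) (h : orient (P 0) (P 1) (P 2) < 0)
    (y : ℂ) : y ∈ table P ↔ InTri (P 0) (P 2) (P 1) y := by
  rw [mem_table_iff P hP]
  obtain ⟨h0, h1, h2⟩ := orient_coord P hP y
  unfold InTri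
  rw [orient_swap (P 2) (P 0), orient_swap (P 1) (P 2), orient_swap (P 0) (P 1), h0, h1, h2]
  constructor
  · intro hall
    refine ⟨?_, ?_, ?_⟩
    · have := hall 1; nlinarith
    · have := hall 0; nlinarith
    · have := hall 2; nlinarith
  · rintro ⟨g1, g0, g2⟩ i
    fin_cases i
    · show 0 < (triBasis P hP).coord 0 y
      by_contra hcon
      have := not_lt.mp hcon
      nlinarith
    · show 0 < (triBasis P hP).coord 1 y
      by_contra hcon
      have := not_lt.mp hcon
      nlinarith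
    · show 0 < (triBasis P hP).coord 2 y
      by_contra hcon
      have := not_lt.mp hcon
      nlinarith

lemma cross_rot (τ : ℝ) (u v : ℂ) : cross (ev τ * u) (ev τ * v) = cross u v := by
  rw [cross_eq, cross_eq]
  have h1 : (starRingEnd ℂ) (ev τ) * ev τ = 1 := by
    rw [mul_comm, Complex.mul_conj', norm_ev]; simp
  have : (starRingEnd ℂ) (ev τ * u) * (ev τ * v) =
      ((starRingEnd ℂ) (ev τ) * ev τ) * ((starRingEnd ℂ) u * v) := by
    rw [map_mul]; ring
  rw [this, h1, one_mul]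

lemma eq_norm_mul_ev_arg (z : ℂ) : z = (‖z‖ : ℂ) * ev (Complex.arg z) := by
  rw [ev_eq_exp]; exact (Complex.norm_mul_exp_arg_mul_I z).symm

lemma cross_one (z : ℂ) : cross 1 z = z.im := by simp [cross]

lemma arg_mem_of_im_pos {z : ℂ} (hz : 0 < z.im) : 0 < Complex.arg z ∧ Complex.arg z < Real.pi := by
  constructor
  · have h1 : 0 ≤ Complex.arg z := Complex.arg_nonneg_iff.mpr hz.le
    rcases h1.lt_or_eq with h | h
    · exact h
    · exfalso
      have := (Complex.arg_eq_zero_iff.mp h.symm).2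
      linarith
  · rw [Complex.arg_lt_pi_iff]; right; exact hz.ne'

/-- data of the corner at `a` of a positively oriented triangle `a b c` -/
lemma corner_data {a b c : ℂ} (hΔ : 0 < orient a b c) :
    ∃ τ₀ γ lb lc : ℝ, 0 < γ ∧ γ < Real.pi ∧ 0 < lb ∧ 0 < lc ∧ b - a = lb * ev τ₀ ∧
      c - a = lc * ev (τ₀ + γ) ∧ γ = Complex.arg ((c - a) / (b - a)) := by
  obtain ⟨hab, -, hac⟩ := ne_of_orient_pos hΔ
  set w := b - a with hw
  set q := (c - a) / w with hq
  have hca : c - a ≠ 0 := by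
    intro h; apply hac
    have : a - c = -(c - a) := by ring
    rw [this, h]; simp
  have hq0 : q ≠ 0 := div_ne_zero hca hab
  have hcq : c - a = q * w := by rw [hq]; field_simp
  have him : 0 < q.im := by
    have h1 : orient a b c = Complex.normSq w * q.im := by
      unfold orient
      rw [← hw, hcq, cross_eq]
      have : (starRingEnd ℂ) w * (q * w) = ((Complex.normSq w : ℝ) : ℂ) * q := by
        rw [← Complex.mul_conj w]; ring
      rw [this, Complex.im_ofReal_mul]
    rw [h1] at hΔ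
    have hn : 0 < Complex.normSq w := Complex.normSq_pos.mpr hab
    exact (pos_iff_pos_of_mul_pos hΔ).mp hn
  obtain ⟨g0, g1⟩ := arg_mem_of_im_pos him
  refine ⟨Complex.arg w, Complex.arg q, ‖w‖, ‖q‖ * ‖w‖, g0, g1, norm_pos_iff.mpr hab,
    mul_pos (norm_pos_iff.mpr hq0) (norm_pos_iff.mpr hab), eq_norm_mul_ev_arg w, ?_, rfl⟩
  rw [hcq, ev_add]
  conv_lhs => rw [eq_norm_mul_ev_arg q, eq_norm_mul_ev_arg w]
  push_cast; ring

/-- the function seen from the corner -/
noncomputable def cornerH (a : ℂ) (τ₀ : ℝ) (F : ℂ → ℂ → ℝ) : ℂ → ℝ → ℝ :=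
  fun y θ => F (a + ev τ₀ * y) (ev (θ + τ₀))

lemma corner_inTri {a b c : ℂ} {τ₀ γ lb lc ρ : ℝ} (hΔ : 0 < orient a b c) (hlb : 0 < lb)
    (hlc : 0 < lc) (hb : b - a = lb * ev τ₀) (hc : c - a = lc * ev (τ₀ + γ))
    (hρ : ρ * ‖c - b‖ ≤ orient a b c) {y : ℂ} (hy : Sector γ ρ y) :
    InTri a b c (a + ev τ₀ * y) := by
  obtain ⟨h1, h2, h3⟩ := hy
  refine ⟨?_, ?_, ?_⟩
  · unfold orient
    have : a + ev τ₀ * y - a = ev τ₀ * y := by ring
    rw [this, hb]
    have : (lb : ℂ) * ev τ₀ = (lb : ℂ) * (ev τ₀ * 1) := by ring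
    rw [this, cross_smul_left, cross_rot, cross_one]
    positivity
  · have e : orient b c (a + ev τ₀ * y) = orient a b c + cross (c - b) (ev τ₀ * y) := by
      simp [orient, cross]; ring
    rw [e]
    have hb1 := abs_cross_le (c - b) (ev τ₀ * y)
    rw [norm_mul, norm_ev, one_mul] at hb1
    have hb2 : -(‖c - b‖ * ‖y‖) ≤ cross (c - b) (ev τ₀ * y) := by
      have := neg_abs_le (cross (c - b) (ev τ₀ * y))
      linarith
    obtain ⟨-, hcb, -⟩ := ne_of_orient_pos hΔ
    have hn : 0 < ‖c - b‖ := norm_pos_iff.mpr hcb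
    nlinarith
  · have e : orient c a (a + ev τ₀ * y) = cross (ev τ₀ * y) (c - a) := by
      simp [orient, cross]; ring
    rw [e, hc, ev_add, cross_smul_right, cross_rot]
    positivity

lemma corner_wedgeInv {a b c : ℂ} {F : ℂ → ℂ → ℝ} {τ₀ γ lb lc ρ : ℝ}
    (hgood : Good a b c F Set.univ) (hΔ : 0 < orient a b c) (hlb : 0 < lb)
    (hlc : 0 < lc) (hb : b - a = lb * ev τ₀) (hc : c - a = lc * ev (τ₀ + γ))
    (hρ : ρ * ‖c - b‖ ≤ orient a b c) (hρb : ρ ≤ lb) (hρc : ρ ≤ lc)
    (hcont : ContinuousOn (fun p : ℂ × ℝ => F p.1 (ev p.2)) ({y | InTri a b c y} ×ˢ Set.univ)) :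
    WedgeInv γ ρ (cornerH a τ₀ F) := by
  have hin : ∀ {y : ℂ}, Sector γ ρ y → InTri a b c (a + ev τ₀ * y) :=
    fun hy => corner_inTri hΔ hlb hlc hb hc hρ hy
  obtain ⟨hab, -, hac⟩ := ne_of_orient_pos hΔ
  have hab' : a ≠ b := by intro h; apply hab; rw [h]; ring
  have hac' : a ≠ c := by intro h; apply hac; rw [h]; ring
  constructor
  · intro y θ t ht hy hy'
    simp only [cornerH]
    have e : a + ev τ₀ * (y + t * ev θ) = (a + ev τ₀ * y) + t * ev (θ + τ₀) := by
      rw [ev_add]; ring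
    rw [e]
    apply hgood.free _ _ _ (norm_ev _) ht (hin hy)
    rw [← e]; exact hin hy'
  · intro y θ s u l hs hu hl hlρ hy hp hy'
    simp only [cornerH]
    have hm : mirror (c - a) (ev (θ + τ₀)) = ev (2 * γ - θ + τ₀) := by
      rw [hc, mirror_pos_smul lc hlc.ne', mirror_ev]; congr 1; ring
    have e : a + ev τ₀ * (y + s * ev θ + u * ev (2 * γ - θ)) =
        (a + ev τ₀ * y) + s * ev (θ + τ₀) + u * mirror (c - a) (ev (θ + τ₀)) := by
      rw [hm, ev_add, ev_add (2 * γ - θ)]; ring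
    rw [e, ← hm]
    apply hgood.bounce a c (by tauto) (by tauto) hac' _ _ s u (l / lc) (norm_ev _) hs hu
      (by positivity) (by rw [div_lt_one hlc]; linarith) (hin hy)
    · have : a + ev τ₀ * y + s * ev (θ + τ₀) = a + ev τ₀ * (y + s * ev θ) := by
        rw [ev_add]; ring
      rw [this, hp, hc, ev_add]
      have hlcC : (lc : ℂ) ≠ 0 := by exact_mod_cast hlc.ne'
      push_cast
      field_simp
    · rw [← e]; exact hin hy'
  · intro y θ s u l hs hu hl hlρ hy hp hy'
    simp only [cornerH]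
    have hm : mirror (b - a) (ev (θ + τ₀)) = ev (-θ + τ₀) := by
      rw [hb, mirror_pos_smul lb hlb.ne', mirror_ev]; congr 1; ring
    have e : a + ev τ₀ * (y + s * ev θ + u * ev (-θ)) =
        (a + ev τ₀ * y) + s * ev (θ + τ₀) + u * mirror (b - a) (ev (θ + τ₀)) := by
      rw [hm, ev_add, ev_add (-θ)]; ring
    rw [e, ← hm]
    apply hgood.bounce a b (by tauto) (by tauto) hab' _ _ s u (l / lb) (norm_ev _) hs hu
      (by positivity) (by rw [div_lt_one hlb]; linarith) (hin hy)
    · have : a + ev τ₀ * y + s * ev (θ + τ₀) = a + ev τ₀ * (y + s * ev θ) := by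
        rw [ev_add]; ring
      rw [this, hp, hb]
      have hlbC : (lb : ℂ) ≠ 0 := by exact_mod_cast hlb.ne'
      push_cast
      field_simp
    · rw [← e]; exact hin hy'
  · intro y θ
    simp only [cornerH]
    have : θ + 2 * Real.pi + τ₀ = (θ + τ₀) + 2 * Real.pi := by ring
    rw [this, ev_add_two_pi]
  · have hc1 : Continuous (fun p : ℂ × ℝ => (a + ev τ₀ * p.1, p.2 + τ₀)) := by fun_prop
    exact hcont.comp hc1.continuousOn (fun p hp => ⟨hin hp.1, trivial⟩)

theorem vertex_const {a b c : ℂ} {F : ℂ → ℂ → ℝ} (hgood : Good a b c F Set.univ)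
    (hΔ : 0 < orient a b c)
    (hcont : ContinuousOn (fun p : ℂ × ℝ => F p.1 (ev p.2)) ({y | InTri a b c y} ×ˢ Set.univ))
    (hirr : ¬ ∃ q : ℚ, Complex.arg ((c - a) / (b - a)) = q * Real.pi) :
    ∃ k : ℝ, ∀ (y v : ℂ) (τ : ℝ), ‖v‖ = 1 → τ ≠ 0 → InTri a b c y → a = y + τ * v → F y v = k := by
  obtain ⟨τ₀, γ, lb, lc, hγ0, hγπ, hlb, hlc, hb, hc, hγ⟩ := corner_data hΔ
  obtain ⟨-, hcb, -⟩ := ne_of_orient_pos hΔ
  have hn : 0 < ‖c - b‖ := norm_pos_iff.mpr hcb
  set ρ := min (min lb lc) (orient a b c / ‖c - b‖) with hρd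
  have hρ0 : 0 < ρ := lt_min (lt_min hlb hlc) (by positivity)
  have hρb : ρ ≤ lb := (min_le_left _ _).trans (min_le_left _ _)
  have hρc : ρ ≤ lc := (min_le_left _ _).trans (min_le_right _ _)
  have hρ : ρ * ‖c - b‖ ≤ orient a b c := by
    have : ρ ≤ orient a b c / ‖c - b‖ := min_le_right _ _
    rwa [le_div_iff₀ hn] at this
  have hW := corner_wedgeInv hgood hΔ hlb hlc hb hc hρ hρb hρc hcont
  obtain ⟨k, hk⟩ := wedge_const hγ0 hγπ hρ0 (by rw [hγ]; exact hirr) hW
  refine ⟨k, fun y v τ hv hτ hy hay => ?_⟩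
  -- polar coordinates of y seen from the corner
  set z := (starRingEnd ℂ) (ev τ₀) * (y - a) with hz
  have h1 : ev τ₀ * (starRingEnd ℂ) (ev τ₀) = 1 := by
    rw [Complex.mul_conj', norm_ev]; simp
  have hyz : y = a + ev τ₀ * z := by
    rw [hz, ← mul_assoc, h1]; ring
  have hzim : 0 < z.im := by
    have := hy.1
    unfold orient at this
    have e : y - a = ev τ₀ * z := by rw [hyz]; ring
    rw [e, hb] at this
    have e2 : (lb : ℂ) * ev τ₀ = (lb : ℂ) * (ev τ₀ * 1) := by ring
    rw [e2, cross_smul_left, cross_rot, cross_one] at this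
    exact (pos_iff_pos_of_mul_pos this).mp hlb
  have hzc : 0 < cross z (ev γ) := by
    have := hy.2.2
    have e : orient c a y = cross (y - a) (c - a) := by
      simp [orient, cross]; ring
    have e1 : y - a = ev τ₀ * z := by rw [hyz]; ring
    rw [e, e1, hc, ev_add, cross_smul_right, cross_rot] at this
    exact (pos_iff_pos_of_mul_pos this).mp hlc
  obtain ⟨hψ0, hψπ⟩ := arg_mem_of_im_pos hzim
  set ψ := Complex.arg z with hψ
  set R := ‖z‖ with hR
  have hz0 : z ≠ 0 := by intro h; rw [h] at hzim; simp at hzim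
  have hR0 : 0 < R := norm_pos_iff.mpr hz0
  have hzp : z = (R : ℂ) * ev ψ := eq_norm_mul_ev_arg z
  have hψγ : ψ < γ := by
    rw [hzp, cross_smul_left, cross_ev_ev] at hzc
    have hs : 0 < Real.sin (γ - ψ) := (pos_iff_pos_of_mul_pos hzc).mp hR0
    by_contra hcon
    have h2 : γ - ψ ≤ 0 := by linarith
    have := Real.sin_nonpos_of_nonpos_of_neg_pi_le h2 (by linarith)
    linarith
  set u := ev (ψ + τ₀) with hu
  have hyu : y = a + (R : ℂ) * u := by
    rw [hyz, hzp, hu, ev_add]; ring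
  set r₀ := min R ρ / 2 with hr₀
  have hmin : 0 < min R ρ := lt_min hR0 hρ0
  have hr0 : 0 < r₀ := by rw [hr₀]; positivity
  have hr0R : r₀ < R := by
    have := min_le_left R ρ; rw [hr₀]; linarith
  have hr0ρ : r₀ < ρ := by
    have := min_le_right R ρ; rw [hr₀]; linarith
  obtain ⟨k1, k2⟩ := hk r₀ ψ hr0 hr0ρ hψ0 hψγ
  simp only [cornerH] at k1 k2
  have hpt : a + ev τ₀ * ((r₀ : ℂ) * ev ψ) = a + (r₀ : ℂ) * u := by
    rw [hu, ev_add]; ring
  rw [hpt, ← hu] at k1
  have hu2 : ev (ψ + Real.pi + τ₀) = -u := by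
    have : ψ + Real.pi + τ₀ = (ψ + τ₀) + Real.pi := by ring
    rw [this, ev_add_pi]
  rw [hpt, hu2] at k2
  have hin0 : InTri a b c (a + (r₀ : ℂ) * u) := by
    rw [← hpt]
    exact corner_inTri hΔ hlb hlc hb hc hρ (sector_polar hγπ hr0 hr0ρ hψ0 hψγ)
  have hnu : ‖u‖ = 1 := norm_ev _
  -- relation between v and u
  have hrel : (τ : ℂ) * v = -((R : ℂ) * u) := by
    have : (τ : ℂ) * v = a - y := by rw [hay]; ring
    rw [this, hyu]; ring
  have habs : |τ| = R := by
    have := congrArg norm hrel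
    rw [norm_mul, norm_neg, norm_mul, hv, hnu] at this
    simpa [abs_of_pos hR0] using this
  have hτC : (τ : ℂ) ≠ 0 := by exact_mod_cast hτ
  rcases lt_or_gt_of_ne hτ with hneg | hpos
  · -- outgoing
    have hτR : τ = -R := by rw [← habs, abs_of_neg hneg]; ring
    have hvu : v = u := by
      have hRC : (R : ℂ) ≠ 0 := by exact_mod_cast hR0.ne'
      rw [hτR] at hrel
      push_cast at hrel
      have : (R : ℂ) * v = (R : ℂ) * u := by linear_combination (-1 : ℂ) * hrel
      exact mul_left_cancel₀ hRC this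
    rw [hvu, ← k1]
    have e : y = a + (r₀ : ℂ) * u + ((R - r₀ : ℝ) : ℂ) * u := by
      rw [hyu]; push_cast; ring
    rw [e]
    symm
    apply hgood.free _ _ _ hnu (by linarith) hin0
    rw [← e]; exact hy
  · -- incoming
    have hτR : τ = R := by rw [← habs, abs_of_pos hpos]
    have hvu : v = -u := by
      have hRC : (R : ℂ) ≠ 0 := by exact_mod_cast hR0.ne'
      rw [hτR] at hrel
      have : (R : ℂ) * v = (R : ℂ) * (-u) := by linear_combination hrel
      exact mul_left_cancel₀ hRC this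
    rw [hvu, ← k2]
    have e : a + (r₀ : ℂ) * u = y + ((R - r₀ : ℝ) : ℂ) * (-u) := by
      rw [hyu]; push_cast; ring
    rw [e]
    apply hgood.free _ _ _ (by rw [norm_neg, hnu]) (by linarith) hy
    rw [← e]; exact hin0

open Topology

theorem finite_values_of_good {a b c : ℂ} {F : ℂ → ℂ → ℝ} (hgood : Good a b c F Set.univ)
    (hΔ : 0 < orient a b c)
    (hcont : ContinuousOn (fun p : ℂ × ℝ => F p.1 (ev p.2)) ({y | InTri a b c y} ×ˢ Set.univ))
    (hia : ¬ ∃ q : ℚ, Complex.arg ((c - a) / (b - a)) = q * Real.pi)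
    (hib : ¬ ∃ q : ℚ, Complex.arg ((a - b) / (c - b)) = q * Real.pi)
    (hic : ¬ ∃ q : ℚ, Complex.arg ((b - c) / (a - c)) = q * Real.pi) :
    ∃ S : Set ℝ, S.Finite ∧ ∀ x θ, InTri a b c x → F x (ev θ) ∈ S := by
  have hset1 : {y | InTri b c a y} = {y | InTri a b c y} := by
    ext y; exact inTri_cyc
  have hset2 : {y | InTri c a b y} = {y | InTri a b c y} := by
    ext y; exact inTri_cyc.trans inTri_cyc
  obtain ⟨ka, hka⟩ := vertex_const hgood hΔ hcont hia
  obtain ⟨kb, hkb⟩ := vertex_const hgood.cyc (by rw [orient_cyc]; exact hΔ)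
    (by rw [hset1]; exact hcont) hib
  obtain ⟨kc, hkc⟩ := vertex_const hgood.cyc.cyc (by rw [orient_cyc, orient_cyc]; exact hΔ)
    (by rw [hset2]; exact hcont) hic
  set S : Set ℝ := {ka, kb, kc} with hS
  have hSfin : S.Finite := by rw [hS]; exact Set.toFinite _
  have hgoodS : Good a b c F S := by
    refine ⟨hgood.free, hgood.bounce, ?_⟩
    rintro p (rfl | rfl | rfl) y v τ hv hτ hy hp
    · rw [hka y v τ hv hτ hy hp]; simp [hS]
    · rw [hkb y v τ hv hτ (inTri_cyc.mpr hy) hp]; simp [hS]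
    · rw [hkc y v τ hv hτ (inTri_cyc.mpr (inTri_cyc.mpr hy)) hp]; simp [hS]
  refine ⟨S, hSfin, fun x θ hx => ?_⟩
  by_contra hnot
  have hopenT : IsOpen {y | InTri a b c y} := by
    have o : ∀ p q : ℂ, IsOpen {y : ℂ | 0 < orient p q y} := by
      intro p q
      apply isOpen_lt continuous_const
      unfold orient cross
      fun_prop
    exact (o a b).inter ((o b c).inter (o c a))
  have hg : ContinuousAt (fun t : ℝ => F x (ev t)) θ := by
    have h1 : ContinuousAt (fun p : ℂ × ℝ => F p.1 (ev p.2)) (x, θ) :=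
      hcont.continuousAt ((hopenT.prod isOpen_univ).mem_nhds ⟨hx, trivial⟩)
    exact h1.comp (f := fun t : ℝ => (x, t)) (by fun_prop)
  have hopen : Sᶜ ∈ 𝓝 (F x (ev θ)) := hSfin.isClosed.isOpen_compl.mem_nhds hnot
  have hev : ∀ᶠ t in 𝓝 θ, F x (ev t) ∈ Sᶜ := hg.tendsto.eventually hopen
  obtain ⟨ε, hε, hball⟩ := Metric.eventually_nhds_iff.mp hev
  set η := min (ε / 2) 1 with hη
  have hη0 : 0 < η := lt_min (by positivity) one_pos
  have hη1 : η ≤ 1 := min_le_right _ _
  have hη2 : η < ε := lt_of_le_of_lt (min_le_left _ _) (by linarith)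
  have hχ : 0 < cross (ev θ) (ev (θ + η)) := by
    rw [cross_ev_ev]
    have : θ + η - θ = η := by ring
    rw [this]
    exact Real.sin_pos_of_pos_of_lt_pi hη0 (by linarith [Real.pi_gt_three])
  obtain ⟨t, ht, htS⟩ := fan_inside hgoodS hΔ hx (by linarith : θ ≤ θ + η) hχ
  apply hball (y := t) _ htS
  rw [Real.dist_eq, abs_lt]
  constructor <;> linarith [ht.1, ht.2]

lemma dirVec_argDir_unit (v : ℂ) (hv : ‖v‖ = 1) : dirVec (argDir v) = v := by
  have hv0 : v ≠ 0 := by intro h; rw [h] at hv; simp at hv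
  rw [dirVec_argDir v hv0, hv]; simp

lemma argDir_ev (θ : ℝ) : argDir (ev θ) = ((θ / (2 * Real.pi) : ℝ) : UnitAddCircle) := by
  apply dirVec_injective
  rw [dirVec_argDir_unit _ (norm_ev θ), dirVec_coe, ev_eq_exp]
  congr 2
  have := Real.pi_pos
  push_cast
  field_simp

/-- the function of (position, unit vector) attached to a function on the phase space -/
noncomputable def liftF (f : ℂ × UnitAddCircle → ℝ) : ℂ → ℂ → ℝ := fun y v => f (y, argDir v)

lemma fin3_cases (i j : Fin 3) (h : i ≠ j) : j = i + 1 ∨ i = j + 1 := by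
  fin_cases i <;> fin_cases j <;> simp at h ⊢

lemma good_of_inv (P : Fin 3 → ℂ) (f : ℂ × UnitAddCircle → ℝ)
    (hinv : ∀ (t : ℝ) (z w : ℂ × UnitAddCircle), Flow P t z w → f w = f z) (a b c : ℂ)
    (hvert : ∀ p, (p = a ∨ p = b ∨ p = c) → ∃ i, p = P i)
    (htable : ∀ y, y ∈ table P ↔ InTri a b c y) : Good a b c (liftF f) Set.univ := by
  refine ⟨?_, ?_, fun _ _ _ _ _ _ _ _ _ => trivial⟩
  · intro y v t hv ht hy hy'
    simp only [liftF]
    have hd := dirVec_argDir_unit v hv
    have tr := Travel.flight (P := P) y (argDir v) t ht ((htable y).mpr hy)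
      (by rw [hd]; exact (htable _).mpr hy')
    rw [hd] at tr
    exact (hinv t _ _ (Or.inl ⟨ht, tr⟩)).symm
  · intro p q hp hq hpq y v s u ν hv hs hu hν0 hν1 hy hpt hy'
    simp only [liftF]
    obtain ⟨i, rfl⟩ := hvert p hp
    obtain ⟨j, rfl⟩ := hvert q hq
    have hij : i ≠ j := by intro h; apply hpq; rw [h]
    have hw : P j - P i ≠ 0 := sub_ne_zero.mpr (Ne.symm hpq)
    have hd := dirVec_argDir_unit v hv
    have hm1 : ‖mirror (P j - P i) v‖ = 1 := by rw [norm_mirror _ _ hw, hv]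
    have hd' := dirVec_argDir_unit _ hm1
    have key : Travel P (s + u) (y, argDir v)
        (y + s * dirVec (argDir v) + u * dirVec (argDir (mirror (P j - P i) v)),
          argDir (mirror (P j - P i) v)) := by
      rcases fin3_cases i j hij with rfl | rfl
      · apply Travel.bounce y (argDir v) _ s u i hs hu ((htable y).mpr hy)
        · rw [hd, hpt]
          refine ⟨1 - ν, ν, by linarith, hν0, by ring, ?_⟩
          simp only [Complex.real_smul]; push_cast; ring
        · rw [hd, hd']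
        · rw [hd, hd']; exact (htable _).mpr hy'
      · apply Travel.bounce y (argDir v) _ s u j hs hu ((htable y).mpr hy)
        · rw [hd, hpt]
          refine ⟨ν, 1 - ν, hν0, by linarith, by ring, ?_⟩
          simp only [Complex.real_smul]; push_cast; ring
        · rw [hd, hd']
          have : P (j + 1) - P j = -(P j - P (j + 1)) := by ring
          rw [this, mirror_neg_left]
        · rw [hd, hd']; exact (htable _).mpr hy'
    rw [hd, hd'] at key
    exact (hinv (s + u) _ _ (Or.inl ⟨by linarith, key⟩)).symm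

lemma cont_liftF (P : Fin 3 → ℂ) (f : ℂ × UnitAddCircle → ℝ)
    (hf : ContinuousOn f (table P ×ˢ Set.univ)) (a b c : ℂ)
    (htable : ∀ y, y ∈ table P ↔ InTri a b c y) :
    ContinuousOn (fun p : ℂ × ℝ => liftF f p.1 (ev p.2)) ({y | InTri a b c y} ×ˢ Set.univ) := by
  have e : (fun p : ℂ × ℝ => liftF f p.1 (ev p.2)) =
      f ∘ (fun p : ℂ × ℝ => (p.1, ((p.2 / (2 * Real.pi) : ℝ) : UnitAddCircle))) := by
    funext p
    simp only [liftF, argDir_ev, Function.comp]
  rw [e]
  have hc : Continuous (fun p : ℂ × ℝ => (p.1, ((p.2 / (2 * Real.pi) : ℝ) : UnitAddCircle))) := by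
    apply continuous_fst.prodMk
    exact (AddCircle.continuous_mk' 1).comp (by fun_prop)
  exact hf.comp hc.continuousOn (fun p hp => ⟨(htable _).mpr hp.1, trivial⟩)

lemma irr_arg (a b c : ℂ) (hb : b - a ≠ 0) (hc : c - a ≠ 0)
    (h : ¬ ∃ q : ℚ, EuclideanGeometry.angle b a c = q * Real.pi) :
    ¬ ∃ q : ℚ, Complex.arg ((c - a) / (b - a)) = q * Real.pi := by
  rintro ⟨q, hq⟩
  apply h
  refine ⟨|q|, ?_⟩
  unfold EuclideanGeometry.angle
  simp only [vsub_eq_sub]
  rw [InnerProductGeometry.angle_comm, Complex.angle_eq_abs_arg hc hb, hq, abs_mul,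
    abs_of_pos Real.pi_pos]
  push_cast
  rfl

lemma finite_values_aux (P : Fin 3 → ℂ) (f : ℂ × UnitAddCircle → ℝ)
    (hf : ContinuousOn f (table P ×ˢ Set.univ))
    (hinv : ∀ (t : ℝ) (z w : ℂ × UnitAddCircle), Flow P t z w → f w = f z) (a b c : ℂ)
    (hvert : ∀ p, (p = a ∨ p = b ∨ p = c) → ∃ i, p = P i)
    (htable : ∀ y, y ∈ table P ↔ InTri a b c y) (hΔ : 0 < orient a b c)
    (hia : ¬ ∃ q : ℚ, EuclideanGeometry.angle b a c = q * Real.pi)
    (hib : ¬ ∃ q : ℚ, EuclideanGeometry.angle c b a = q * Real.pi)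
    (hic : ¬ ∃ q : ℚ, EuclideanGeometry.angle a c b = q * Real.pi) :
    ∃ S : Set ℝ, S.Finite ∧ ∀ z ∈ table P ×ˢ (Set.univ : Set UnitAddCircle), f z ∈ S := by
  obtain ⟨hab, hcb, hac⟩ := ne_of_orient_pos hΔ
  have hba : a - b ≠ 0 := by
    intro h; apply hab
    have : b - a = -(a - b) := by ring
    rw [this, h]; simp
  have hbc : b - c ≠ 0 := by
    intro h; apply hcb
    have : c - b = -(b - c) := by ring
    rw [this, h]; simp
  have hca : c - a ≠ 0 := by
    intro h; apply hac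
    have : a - c = -(c - a) := by ring
    rw [this, h]; simp
  obtain ⟨S, hS, hval⟩ := finite_values_of_good (good_of_inv P f hinv a b c hvert htable) hΔ
    (cont_liftF P f hf a b c htable) (irr_arg a b c hab hca hia) (irr_arg b c a hcb hba hib)
    (irr_arg c a b hac hbc hic)
  refine ⟨S, hS, ?_⟩
  rintro ⟨x, θ⟩ ⟨hx, -⟩
  obtain ⟨t, rfl⟩ := QuotientAddGroup.mk_surjective θ
  have := hval x (2 * Real.pi * t) ((htable x).mp hx)
  simp only [liftF, argDir_ev] at this
  have e : 2 * Real.pi * t / (2 * Real.pi) = t := by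
    have := Real.pi_pos
    field_simp
  rw [e] at this
  exact this

/-- In a triangle all of whose angles are irrational multiples of `π`, every continuous function
on the phase space that is invariant under the billiard flow is constant. -/
theorem continuous_integral_const (P : Fin 3 → ℂ) (hP : AffineIndependent ℝ P)
    (hirr : ∀ i : Fin 3, ¬ ∃ q : ℚ,
      EuclideanGeometry.angle (P (i + 1)) (P i) (P (i + 2)) = q * Real.pi)
    (f : ℂ × UnitAddCircle → ℝ) (hf : ContinuousOn f (table P ×ˢ Set.univ))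
    (hinv : ∀ (t : ℝ) (z w : ℂ × UnitAddCircle), Flow P t z w → f w = f z) :
    ∃ k : ℝ, ∀ z ∈ table P ×ˢ (Set.univ : Set UnitAddCircle), f z = k := by
  have h0 : ¬ ∃ q : ℚ, EuclideanGeometry.angle (P 1) (P 0) (P 2) = q * Real.pi := hirr 0
  have h1 : ¬ ∃ q : ℚ, EuclideanGeometry.angle (P 2) (P 1) (P 0) = q * Real.pi := hirr 1
  have h2 : ¬ ∃ q : ℚ, EuclideanGeometry.angle (P 0) (P 2) (P 1) = q * Real.pi := hirr 2
  have hfin : ∃ S : Set ℝ, S.Finite ∧ ∀ z ∈ table P ×ˢ (Set.univ : Set UnitAddCircle), f z ∈ S := by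
    rcases lt_or_gt_of_ne (orient_ne_zero P hP) with hneg | hpos
    · apply finite_values_aux P f hf hinv (P 0) (P 2) (P 1)
      · rintro p (rfl | rfl | rfl)
        exacts [⟨0, rfl⟩, ⟨2, rfl⟩, ⟨1, rfl⟩]
      · exact mem_table_neg P hP hneg
      · have : orient (P 0) (P 2) (P 1) = - orient (P 0) (P 1) (P 2) := by
          simp [orient, cross]; ring
        rw [this]; linarith
      · rw [EuclideanGeometry.angle_comm]; exact h0
      · rw [EuclideanGeometry.angle_comm]; exact h2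
      · rw [EuclideanGeometry.angle_comm]; exact h1
    · apply finite_values_aux P f hf hinv (P 0) (P 1) (P 2)
      · rintro p (rfl | rfl | rfl)
        exacts [⟨0, rfl⟩, ⟨1, rfl⟩, ⟨2, rfl⟩]
      · exact mem_table_pos P hP hpos
      · exact hpos
      · exact h0
      · exact h1
      · exact h2
  obtain ⟨S, hS, hval⟩ := hfin
  have hconn : IsPreconnected (table P ×ˢ (Set.univ : Set UnitAddCircle)) := by
    apply IsPreconnected.prod
    · exact ((convex_convexHull ℝ _).interior).isPreconnected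
    · exact isPreconnected_univ
  obtain ⟨x₀, hx₀⟩ := table_nonempty P hP
  refine ⟨f (x₀, 0), fun z hz => ?_⟩
  exact hconn.constant_of_mapsTo hS.isDiscrete hf hval hz ⟨hx₀, trivial⟩

end Vale.Agent.Lib.P099
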