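import Vale.Agent.Lib.P099.Basic

/-!
# Plane geometry helpers (cross products, mirrors) for the billiard in a triangle
-/

namespace Vale.Agent.Lib.P099

/-- planar cross product -/
def cross (u v : ℂ) : ℝ := u.re * v.im - u.im * v.re

/-- twice the signed area of the triangle `p q r` -/
def orient (p q r : ℂ) : ℝ := cross (q - p) (r - p)

/-- the unit vector `e^{ia}` -/
noncomputable def ev (a : ℝ) : ℂ := ⟨Real.cos a, Real.sin a⟩

@[simp] lemma ev_re (a : ℝ) : (ev a).re = Real.cos a := rfl
@[simp] lemma ev_im (a : ℝ) : (ev a).im = Real.sin a := rfl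

lemma ev_eq_exp (a : ℝ) : ev a = Complex.exp (a * Complex.I) := by
  apply Complex.ext
  · simp [Complex.exp_ofReal_mul_I_re]
  · simp [Complex.exp_ofReal_mul_I_im]

lemma norm_ev (a : ℝ) : ‖ev a‖ = 1 := by
  rw [ev_eq_exp]; exact Complex.norm_exp_ofReal_mul_I a

lemma ev_add (a b : ℝ) : ev (a + b) = ev a * ev b := by
  rw [ev_eq_exp, ev_eq_exp, ev_eq_exp, ← Complex.exp_add]; congr 1; push_cast; ring

lemma ev_neg (a : ℝ) : ev (-a) = (starRingEnd ℂ) (ev a) := by
  apply Complex.ext <;> simp

lemma ev_zero : ev 0 = 1 := by apply Complex.ext <;> simp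

lemma ev_pi : ev Real.pi = -1 := by apply Complex.ext <;> simp

lemma ev_add_pi (a : ℝ) : ev (a + Real.pi) = - ev a := by
  rw [ev_add, ev_pi]; ring

lemma ev_add_two_pi (a : ℝ) : ev (a + 2 * Real.pi) = ev a := by
  apply Complex.ext <;> simp

lemma ev_ne_zero (a : ℝ) : ev a ≠ 0 := by
  intro h; have := norm_ev a; rw [h] at this; simp at this

lemma continuous_ev : Continuous ev := by
  have : ev = fun a : ℝ => Complex.exp (a * Complex.I) := funext ev_eq_exp
  rw [this]; fun_prop

lemma cross_eq (u v : ℂ) : cross u v = ((starRingEnd ℂ) u * v).im := by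
  simp [cross, Complex.mul_im]; ring

lemma cross_self (u : ℂ) : cross u u = 0 := by simp [cross]; ring

lemma cross_comm (u v : ℂ) : cross u v = - cross v u := by simp [cross]; ring

lemma cross_add_left (u v w : ℂ) : cross (u + v) w = cross u w + cross v w := by
  simp [cross]; ring

lemma cross_add_right (u v w : ℂ) : cross u (v + w) = cross u v + cross u w := by
  simp [cross]; ring

lemma cross_sub_left (u v w : ℂ) : cross (u - v) w = cross u w - cross v w := by
  simp [cross]; ring

lemma cross_sub_right (u v w : ℂ) : cross u (v - w) = cross u v - cross u w := by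
  simp [cross]; ring

lemma cross_smul_left (t : ℝ) (u v : ℂ) : cross ((t : ℂ) * u) v = t * cross u v := by
  simp [cross]; ring

lemma cross_smul_right (t : ℝ) (u v : ℂ) : cross u ((t : ℂ) * v) = t * cross u v := by
  simp [cross]; ring

lemma cross_neg_left (u v : ℂ) : cross (-u) v = - cross u v := by simp [cross]; ring

lemma cross_neg_right (u v : ℂ) : cross u (-v) = - cross u v := by simp [cross]; ring

lemma cross_zero_left (v : ℂ) : cross 0 v = 0 := by simp [cross]

lemma cross_zero_right (v : ℂ) : cross v 0 = 0 := by simp [cross]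

/-- Plücker identity in the plane -/
lemma cross_plucker (e a b c : ℂ) :
    cross e a * cross b c + cross e b * cross c a + cross e c * cross a b = 0 := by
  simp [cross]; ring

lemma abs_cross_le (u v : ℂ) : |cross u v| ≤ ‖u‖ * ‖v‖ := by
  rw [cross_eq]
  calc |((starRingEnd ℂ) u * v).im| ≤ ‖(starRingEnd ℂ) u * v‖ := Complex.abs_im_le_norm _
    _ = ‖u‖ * ‖v‖ := by rw [norm_mul, Complex.norm_conj]

lemma cross_ev_ev (a b : ℝ) : cross (ev a) (ev b) = Real.sin (b - a) := by
  simp [cross, Real.sin_sub]; ring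

lemma continuous_cross_ev (w : ℂ) : Continuous fun a : ℝ => cross (ev a) w := by
  simp only [cross, ev_re, ev_im]
  fun_prop

/-! ### mirrors -/

lemma mirror_add (w u v : ℂ) : mirror w (u + v) = mirror w u + mirror w v := by
  simp [mirror]; ring

lemma mirror_sub (w u v : ℂ) : mirror w (u - v) = mirror w u - mirror w v := by
  simp [mirror]; ring

lemma mirror_smul (w : ℂ) (t : ℝ) (v : ℂ) : mirror w ((t : ℂ) * v) = (t : ℂ) * mirror w v := by
  simp [mirror]; ring

lemma mirror_neg (w v : ℂ) : mirror w (-v) = - mirror w v := by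
  simp [mirror]; ring

lemma mirror_mirror (w v : ℂ) (hw : w ≠ 0) : mirror w (mirror w v) = v := by
  have hcw : (starRingEnd ℂ) w ≠ 0 := by simpa using hw
  simp [mirror]
  field_simp

lemma mirror_self (w : ℂ) (hw : w ≠ 0) : mirror w w = w := by
  have hcw : (starRingEnd ℂ) w ≠ 0 := by simpa using hw
  simp [mirror]
  field_simp

lemma mirror_neg_left (w v : ℂ) : mirror (-w) v = mirror w v := by
  simp [mirror]

lemma cross_mirror_mirror (w u v : ℂ) (hw : w ≠ 0) :
    cross (mirror w u) (mirror w v) = - cross u v := by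
  have hcw : (starRingEnd ℂ) w ≠ 0 := by simpa using hw
  rw [cross_eq, cross_eq]
  have : (starRingEnd ℂ) (mirror w u) * mirror w v = (starRingEnd ℂ) ((starRingEnd ℂ) u * v) := by
    simp [mirror]
    field_simp
  rw [this]; simp; ring

lemma mirror_ev (τ a : ℝ) : mirror (ev τ) (ev a) = ev (2 * τ - a) := by
  have hcw : (starRingEnd ℂ) (ev τ) ≠ 0 := by simpa using ev_ne_zero τ
  have h1 : ev τ * (starRingEnd ℂ) (ev τ) = 1 := by
    rw [Complex.mul_conj', norm_ev]; simp
  unfold mirror
  rw [div_eq_iff hcw]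
  have : ev (2 * τ - a) = ev τ * ev τ * (starRingEnd ℂ) (ev a) := by
    rw [← ev_neg, ← ev_add, ← ev_add]; congr 1; ring
  rw [this]
  calc ev τ * (starRingEnd ℂ) (ev a) = ev τ * (starRingEnd ℂ) (ev a) * (ev τ * (starRingEnd ℂ) (ev τ)) := by
        rw [h1]; ring
    _ = _ := by ring

lemma mirror_pos_smul (r : ℝ) (hr : r ≠ 0) (w v : ℂ) : mirror ((r : ℂ) * w) v = mirror w v := by
  by_cases hw : w = 0
  · simp [mirror, hw]
  have hcw : (starRingEnd ℂ) w ≠ 0 := by simpa using hw
  have hr' : (r : ℂ) ≠ 0 := by exact_mod_cast hr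
  simp [mirror]
  field_simp

end Vale.Agent.Lib.P099
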